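import Vale.Agent.P353.AN.GL.Stmt
import Vale.Agent.P353.AN.G.Defs
import Vale.Agent.P353.AN.JN.Defs

/-! # P353, all `N`, block REP: gauge invariant representatives of the global functionals (fields `inv`, `supp`, `disj`, `rep` of `PW.Rep`)

`J i a ε R = avg M (Zb φ ψ b R)` with one `R`-independent `b ∈ C_c^∞`, `η`-support compact in `Reg`. -/

open MeasureTheory Filter Topology
open scoped ContDiff

namespace Vale.Agent.P353.AN.REP

open Vale.Agent.P353.Z Vale.Agent.P353.Z.U Vale.Agent.P353.Z.AN Vale.Agent.P353.AN.G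

variable {N d dh dm r ds : ℕ} {F : Type*} [NormedAddCommGroup F] [InnerProductSpace ℂ F]

/-- slowly growing cutoffs (e.g. `c(|x^s|²/R) c(|x^m|²/R)`) -/
structure IsCo (χ : ℝ → Cfg r × Cfg ds × Cfg dm → ℝ) : Prop where
  meas : ∀ R, Measurable (χ R)
  bd : ∀ R q, 0 ≤ χ R q ∧ χ R q ≤ 1
  lim : ∀ q, Tendsto (fun R => χ R q) atTop (𝓝 1)
  sup : ∀ δ : ℝ, 0 < δ → ∀ᶠ R in atTop, ∀ q, χ R q ≠ 0 → ‖q.2.1‖ ≤ δ * R ∧ ‖q.2.2‖ ≤ δ * (R * Real.sqrt R)

/-- smooth compactly supported profiles with regular `η`-support -/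
structure IsB (S : Setup d F) (φ : Spl dh dm d) (ψ : Spz r ds dh) (b : Cfg r × Cfg ds × Cfg dm → F) : Prop where
  sm : ContDiff ℝ ∞ b
  cs : HasCompactSupport b
  reg : ∀ q ∈ tsupport b, q.1 ∈ Reg S φ ψ

/-- **R0** gauge invariant test functions are equivariant under the group. PROOF. Every `U ∈ SU(N)` is `exp(iH)` with `H` Hermitian traceless
(diagonalise; shift one phase by `2πk`), `H = ∑h_AT_A`; `act(exp(iH)) = ro(exp(ad h))` (sign), `S(exp(iH)) = exp(±i h·𝒮)` (`mg_*` lemmas of `Z/U/MGauss*.lean`, see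
`AN/G/ExpH.lean`, `AN/G/Cen.lean`), and the ODE argument `EqvStmt` (`AN/GL/Eqv.lean`). -/
def CoreStmt (M : BFSS.Model N d F) : Prop := FiniteDimensional ℂ F → ∀ S : Setup d F, Rep M S → ∀ u : Cfg d → F, Setup.Tst u →
  (∀ C x, S.G C u x = 0) → M.IsCore u

/-- **R1** averages do not change the pairing with gauge invariant functions. PROOF: R0, `act U` preserves Lebesgue measure and `S(U)` is unitary, Fubini. -/
def IprStmt (M : BFSS.Model N d F) : Prop := FiniteDimensional ℂ F → ∀ S : Setup d F, Rep M S → ∀ f : Cfg d → F, Setup.Tst f →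
  S.GInv (avg M f) ∧ ∀ u : Cfg d → F, S.GInv u → ipr (avg M f) u = ipr f u

/-- **R2** approximation in the weighted norm by `IsB` functions. PROOF: `MemLp.exist_eLpNorm_sub_le` (Mathlib, `SmoothApprox`) for the measure `wM` (finite on compact
sets), times a smooth cutoff in `η` which is `1` on `K` and has compact support in the open set `Reg` (finite dimensional smooth Urysohn). -/
def ApxStmt (S : Setup d F) : Prop := ∀ (dh dm r ds : ℕ) (φ : Spl dh dm d) (ψ : Spz r ds dh) (K : Set (Cfg r)),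
  IsCompact K → K ⊆ Reg S φ ψ → ∀ f : Cfg r × Cfg ds × Cfg dm → F, MemLp f 2 (wM r ds dm) → (∀ q, f q ≠ 0 → q.1 ∈ K) →
  ∀ ε : ℝ, 0 < ε → ∃ b, IsB S φ ψ b ∧ eLpNorm (fun q => b q - f q) 2 (wM r ds dm) ≤ ENNReal.ofReal ε

/-- **R3** weighted norm of Gaussian profiles. PROOF: `Om` is continuous and positive on a compact set: uniform moments (as `MomStmt`), Tonelli. -/
def WnStmt (S : Setup d F) : Prop := ∀ (dh dm r ds : ℕ) (φ : Spl dh dm d) (ψ : Spz r ds dh) (K : Set (Cfg r))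
  (Om : Cfg r → Matrix (Fin dm) (Fin dm) ℝ), IsCompact K → ContinuousOn Om K →
  (∀ η ∈ K, IsOm S.κ (Dz S φ ψ η) (Om η)) → ∃ C : ℝ, 0 < C ∧ ∀ a : Cfg r → Cfg ds → F,
    StronglyMeasurable (fun q : Cfg r × Cfg ds => a q.1 q.2) → (∀ η s, a η s ≠ 0 → η ∈ K) →
    StronglyMeasurable (bG S.κ Om a : Cfg r × Cfg ds × Cfg dm → F) ∧
    eLpNorm (bG S.κ Om a : Cfg r × Cfg ds × Cfg dm → F) 2 (wM r ds dm) ≤
      ENNReal.ofReal C * eLpNorm (fun q : Cfg r × Cfg ds => a q.1 q.2) 2 (volume.prod volume)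

/-- **R4** one type: representatives. PROOF: R2 and R3 give `b` with `‖b - bG a‖_w ≤ ε'`; `χ_R bG a → bG a` in the weighted norm (dominated convergence); `GluKStmt` for
`b - χ_R bG a` (compact set `K' ⊇` both `η`-supports, support conditions for large `R` by `IsCo.sup` and compactness of the support of `b`); R1; `avg` of `Zb φ ψ b R` (smooth
composition, `R > 0`). Support: `0 ∉ K` since `0 < dm`; `|x|` is preserved by `act`, and `x^z/R ∈ K` forces `|x| ≥ cR`. -/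
def OneStmt (M : BFSS.Model N d F) : Prop := FiniteDimensional ℂ F → ∀ S : Setup d F, Rep M S → ∀ (dh dm r ds : ℕ)
  (φ : Spl dh dm d) (ψ : Spz r ds dh), S.IsSub φ → IsZ S φ ψ → 0 < dm → ∀ (Om : Cfg r → Matrix (Fin dm) (Fin dm) ℝ),
  ContinuousOn Om (Reg S φ ψ) → (∀ η ∈ Reg S φ ψ, IsOm S.κ (Dz S φ ψ η) (Om η)) →
  ∀ (χ : ℝ → Cfg r × Cfg ds × Cfg dm → ℝ), IsCo χ → ∀ (a : Cfg r → Cfg ds → F) (K : Set (Cfg r)), IsCompact K →
  K ⊆ Reg S φ ψ → StronglyMeasurable (fun q : Cfg r × Cfg ds => a q.1 q.2) →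
  MemLp (fun q : Cfg r × Cfg ds => a q.1 q.2) 2 (volume.prod volume) → (∀ η s, a η s ≠ 0 → η ∈ K) → ∀ ε : ℝ, 0 < ε →
  ∃ b : Cfg r × Cfg ds × Cfg dm → F, IsB S φ ψ b ∧
    eLpNorm (fun q => b q - bG S.κ Om a q) 2 (wM r ds dm) ≤ ENNReal.ofReal ε ∧
    (∀ R : ℝ, 0 < R → S.GInv (avg M (Zb φ ψ b R))) ∧
    (∃ c : ℝ, 0 < c ∧ ∀ᶠ R in atTop, ∀ x : Cfg d, ‖x‖ ≤ c * R → avg M (Zb φ ψ b R) x = 0) ∧
    ∀ (R : ℕ → ℝ) (u : ℕ → Cfg d → F) (A : ℝ), BdL S R u A → ∀ᶠ n in atTop,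
      ‖ipr (avg M (Zb φ ψ b (R n))) (u n) -
        ipr (Zb φ ψ (fun q => ((χ (R n) q : ℝ) : ℂ) • bG S.κ Om a q) (R n)) (u n)‖ ≤ ε * Real.sqrt A

/-- **R5** different types have disjoint supports. PROOF: otherwise `x_n = act U_n y_n = act U_n' y_n'`, `y_n/R_n` and `y_n'/R_n` subconverge to `emb φ (cmb ψ η 0) 0` and
`emb φ' (cmb ψ' η' 0) 0` with `η`, `η'` regular (`x^s/R`, `x^m/R → 0` on the compact supports of `b`, `b'`), `U_n⁻¹U_n'` subconverges in `SU(N)`: contradiction. -/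
def DisjStmt (M : BFSS.Model N d F) : Prop := ∀ S : Setup d F, ∀ (dh dm r ds dh' dm' r' ds' : ℕ)
  (φ : Spl dh dm d) (ψ : Spz r ds dh) (φ' : Spl dh' dm' d) (ψ' : Spz r' ds' dh'),
  (∀ η ∈ Reg S φ ψ, ∀ η' ∈ Reg S φ' ψ', ∀ U, M.act U (emb φ (cmb ψ η 0) 0) ≠ emb φ' (cmb ψ' η' 0) 0) →
  ∀ b b', IsB S φ ψ b → IsB S φ' ψ' b' → ∀ᶠ R in atTop, ∀ x : Cfg d,
    avg M (Zb φ ψ b R) x = 0 ∨ avg M (Zb φ' ψ' b' R) x = 0

end Vale.Agent.P353.AN.REP
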