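import Vale.Agent.P353.AN.REP.Stmt
import Vale.Agent.P353.AN.Fin.CoreA

/-! # P353, all `N`, block REP: **R0**, gauge invariant test functions are equivariant -/

open MeasureTheory Filter Topology
open scoped ContDiff

namespace Vale.Agent.P353.AN.REP

open Vale.Agent.P353.Z Vale.Agent.P353.Z.U Vale.Agent.P353.Z.AN Vale.Agent.P353.AN.G

variable {N d : ℕ} {F : Type*} [NormedAddCommGroup F] [InnerProductSpace ℂ F]

/-- **R0** -/
theorem core_stmt (M : BFSS.Model N d F) : CoreStmt M := by
  intro hF S hrep u hu hG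
  exact ⟨hu.1, hu.2, fun V x => core_eqv M S hrep u hu.1 hG V x⟩

end Vale.Agent.P353.AN.REP
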