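import Vale.Agent.P353.AN.REP.Disj

/-! # P353, all `N`, block REP: R5 in general colour frames (helper38), adapted from `AN/REP/Disj.lean` -/

open MeasureTheory Filter Topology
open scoped ContDiff

namespace Vale.Agent.P353.AN.REP

open Vale.Agent.P353.Z Vale.Agent.P353.Z.U Vale.Agent.P353.Z.AN Vale.Agent.P353.AN.G

variable {N d dh dm r ds : ℕ} {F : Type*} [NormedAddCommGroup F] [InnerProductSpace ℂ F]

/-- **R5, general form**: representatives of different types in different colour frames have disjoint supports -/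
def DisjOStmt (M : BFSS.Model N d F) : Prop := ∀ (dh dm r ds dh' dm' r' ds' : ℕ) (φ : Spl dh dm d) (ψ : Spz r ds dh)
  (φ' : Spl dh' dm' d) (ψ' : Spz r' ds' dh') (A A' : Cfg d ≃L[ℝ] Cfg d) (G : Set (Cfg r)) (G' : Set (Cfg r')),
  (∀ η ∈ G, ∀ η' ∈ G', ∀ U, M.act U (A.symm (emb φ (cmb ψ η 0) 0)) ≠ A'.symm (emb φ' (cmb ψ' η' 0) 0)) →
  ∀ (b : Cfg r × Cfg ds × Cfg dm → F) (b' : Cfg r' × Cfg ds' × Cfg dm' → F),
  HasCompactSupport b → (∀ q ∈ tsupport b, q.1 ∈ G) → HasCompactSupport b' → (∀ q ∈ tsupport b', q.1 ∈ G') →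
  ∀ᶠ R in atTop, ∀ x : Cfg d,
    avg M (fun y => Zb φ ψ b R (A y)) x = 0 ∨ avg M (fun y => Zb φ' ψ' b' R (A' y)) x = 0

/-- where the average does not vanish, some translate is close to the scaled slice point of the support -/
lemma h38_near (M : BFSS.Model N d F) (φ : Spl dh dm d) (ψ : Spz r ds dh) (A : Cfg d ≃L[ℝ] Cfg d)
    (b : Cfg r × Cfg ds × Cfg dm → F) (L : ℝ) (hL : ∀ q ∈ tsupport b, ‖q‖ ≤ L) (hL0 : 0 ≤ L) (R : ℝ) (hR : 1 ≤ R)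
    (x : Cfg d) (hx : avg M (fun y => Zb φ ψ b R (A y)) x ≠ 0) :
    ∃ (U : BFSS.SU N) (η : Cfg r), η ∈ Prod.fst '' tsupport b ∧
      ‖M.act U⁻¹ x - R • A.symm (emb φ (cmb ψ η 0) 0)‖ ≤ ‖(A.symm : Cfg d →L[ℝ] Cfg d)‖ * (2 * L) := by
  obtain ⟨U, hU⟩ : ∃ U : BFSS.SU N, Zb φ ψ b R (A (M.act U⁻¹ x)) ≠ 0 := by
    by_contra hcon
    push Not at hcon
    apply hx
    unfold avg
    have h0 : (fun U : BFSS.SU N => M.S U (Zb φ ψ b R (A (M.act U⁻¹ x)))) = fun _ => 0 := by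
      funext U
      rw [hcon U, map_zero]
    show ∫ U, M.S U (Zb φ ψ b R (A (M.act U⁻¹ x))) ∂_ = 0
    rw [h0, integral_zero]
  have hR0 : 0 < R := lt_of_lt_of_le one_pos hR
  obtain ⟨y, hy⟩ : ∃ y, y = A (M.act U⁻¹ x) := ⟨_, rfl⟩
  have hy' : M.act U⁻¹ x = A.symm y := by rw [hy, A.symm_apply_apply]
  rw [← hy] at hU
  have hbq : b (R⁻¹ • hz ψ (zy φ y), hs ψ (zy φ y), Real.sqrt R • pm φ y) ≠ 0 := by
    intro h0
    apply hU
    unfold Zb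
    rw [h0, smul_zero]
  have hq := subset_tsupport b (Function.mem_support.2 hbq)
  have hn := hL _ hq
  rw [Prod.norm_def, Prod.norm_def] at hn
  have n2 : ‖hs ψ (zy φ y)‖ ≤ L := le_trans (le_trans (le_max_left _ _) (le_max_right _ _)) hn
  have n3 : ‖Real.sqrt R • pm φ y‖ ≤ L := le_trans (le_trans (le_max_right _ _) (le_max_right _ _)) hn
  refine ⟨U, R⁻¹ • hz ψ (zy φ y), ⟨_, hq, rfl⟩, ?_⟩
  obtain ⟨η, hη⟩ : ∃ η, η = R⁻¹ • hz ψ (zy φ y) := ⟨_, rfl⟩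
  rw [← hη, hy']
  have m1 : hz ψ (zy φ (y - R • emb φ (cmb ψ η 0) 0)) = 0 := by
    rw [sup_hz, hη, smul_smul, mul_inv_cancel₀ hR0.ne', one_smul, sub_self]
  have m3 : ‖pm φ y‖ ≤ L := by
    refine le_trans ?_ n3
    rw [norm_smul, Real.norm_of_nonneg (Real.sqrt_nonneg R)]
    have h1 : 1 ≤ Real.sqrt R := Real.one_le_sqrt.2 hR
    exact le_mul_of_one_le_left (norm_nonneg _) h1
  have hsq := sup_norm_sq φ ψ (y - R • emb φ (cmb ψ η 0) 0)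
  rw [m1, sup_hs, sup_pm, norm_zero] at hsq
  have p2 := pow_le_pow_left₀ (norm_nonneg _) n2 2
  have p3 := pow_le_pow_left₀ (norm_nonneg _) m3 2
  have h1 : ‖y - R • emb φ (cmb ψ η 0) 0‖ ≤ 2 * L := by
    refine le_of_sq_le_sq ?_ (by positivity)
    rw [hsq]
    nlinarith [sq_nonneg L]
  have e : A.symm y - R • A.symm (emb φ (cmb ψ η 0) 0) =
      (A.symm : Cfg d →L[ℝ] Cfg d) (y - R • emb φ (cmb ψ η 0) 0) := by
    rw [map_sub, map_smul]; rfl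
  rw [e]
  exact ((A.symm : Cfg d →L[ℝ] Cfg d).le_opNorm _).trans
    (mul_le_mul_of_nonneg_left h1 (norm_nonneg _))

/-- **R5** different types have disjoint supports (general form) -/
theorem disjO_stmt (M : BFSS.Model N d F) : DisjOStmt M := by
  intro dh dm r ds dh' dm' r' ds' φ ψ φ' ψ' A A' G G' hne b b' hb hbG hb' hbG'
  obtain ⟨hmul, hone, hadd, hsm, hnorm, hcont, -⟩ := act_stmt M
  have hsub : ∀ (U : BFSS.SU N) (x y : Cfg d), M.act U (x - y) = M.act U x - M.act U y := by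
    intro U x y
    rw [sub_eq_add_neg, hadd, ← neg_one_smul ℝ y, hsm, neg_one_smul, ← sub_eq_add_neg]
  -- bounds of the supports
  obtain ⟨L, hL0, hL⟩ : ∃ L : ℝ, 0 < L ∧ ∀ q ∈ tsupport b, ‖q‖ ≤ L := by
    obtain ⟨C, hC⟩ := hb.isCompact.isBounded.exists_norm_le
    exact ⟨max C 1, lt_of_lt_of_le one_pos (le_max_right _ _), fun q hq => (hC q hq).trans (le_max_left _ _)⟩
  obtain ⟨L', hL0', hL'⟩ : ∃ L : ℝ, 0 < L ∧ ∀ q ∈ tsupport b', ‖q‖ ≤ L := by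
    obtain ⟨C, hC⟩ := hb'.isCompact.isBounded.exists_norm_le
    exact ⟨max C 1, lt_of_lt_of_le one_pos (le_max_right _ _), fun q hq => (hC q hq).trans (le_max_left _ _)⟩
  obtain ⟨Λ, hΛ⟩ : ∃ Λ : ℝ, Λ = ‖(A.symm : Cfg d →L[ℝ] Cfg d)‖ * (2 * L) := ⟨_, rfl⟩
  obtain ⟨Λ', hΛ'⟩ : ∃ Λ : ℝ, Λ = ‖(A'.symm : Cfg d →L[ℝ] Cfg d)‖ * (2 * L') := ⟨_, rfl⟩
  -- the distance of the two orbits
  obtain ⟨K, hK⟩ : ∃ K : Set (Cfg r), K = Prod.fst '' tsupport b := ⟨_, rfl⟩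
  obtain ⟨K', hK'⟩ : ∃ K : Set (Cfg r'), K = Prod.fst '' tsupport b' := ⟨_, rfl⟩
  have hKc : IsCompact K := by
    rw [hK]
    exact hb.isCompact.image continuous_fst
  have hKc' : IsCompact K' := by
    rw [hK']
    exact hb'.isCompact.image continuous_fst
  obtain ⟨δ, hδ, hδg⟩ := h435_dist (fun U y => M.act U y) hcont
    (A.symm.continuous.comp (h435_emb_cont φ ψ)) (A'.symm.continuous.comp (h435_emb_cont φ' ψ')) hKc hKc'
    (fun U η hη η' hη' => by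
      rw [hK] at hη
      rw [hK'] at hη'
      obtain ⟨q, hq, hq1⟩ := hη
      obtain ⟨q', hq', hq1'⟩ := hη'
      refine hne _ ?_ _ ?_ _
      · rw [← hq1]; exact hbG q hq
      · rw [← hq1']; exact hbG' q' hq')
  filter_upwards [eventually_ge_atTop (1 : ℝ), eventually_gt_atTop ((Λ + Λ') / δ)] with R hR1 hR2 x
  by_contra hcon
  push Not at hcon
  obtain ⟨hx, hx'⟩ := hcon
  obtain ⟨U, η, hη, hn⟩ := h38_near M φ ψ A b L hL hL0.le R hR1 x hx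
  obtain ⟨U', η', hη', hn'⟩ := h38_near M φ' ψ' A' b' L' hL' hL0'.le R hR1 x hx'
  rw [← hK] at hη
  rw [← hK'] at hη'
  rw [← hΛ] at hn
  rw [← hΛ'] at hn'
  have h1 : δ ≤ ‖M.act (U'⁻¹ * U) (A.symm (emb φ (cmb ψ η 0) 0)) - A'.symm (emb φ' (cmb ψ' η' 0) 0)‖ :=
    hδg (U'⁻¹ * U) η hη η' hη'
  have hR0 : 0 < R := lt_of_lt_of_le one_pos hR1
  have e1 : M.act (U'⁻¹ * U) (M.act U⁻¹ x) = M.act U'⁻¹ x := by
    rw [← hmul, mul_assoc, mul_inv_cancel, mul_one]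
  have h2 : R * ‖M.act (U'⁻¹ * U) (A.symm (emb φ (cmb ψ η 0) 0)) - A'.symm (emb φ' (cmb ψ' η' 0) 0)‖ ≤ Λ + Λ' := by
    have e2 : R • (M.act (U'⁻¹ * U) (A.symm (emb φ (cmb ψ η 0) 0)) - A'.symm (emb φ' (cmb ψ' η' 0) 0)) =
        (M.act U'⁻¹ x - R • A'.symm (emb φ' (cmb ψ' η' 0) 0)) -
          M.act (U'⁻¹ * U) (M.act U⁻¹ x - R • A.symm (emb φ (cmb ψ η 0) 0)) := by
      rw [hsub, hsm, e1, smul_sub]
      abel
    rw [← Real.norm_of_nonneg hR0.le, ← norm_smul, e2]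
    refine (norm_sub_le _ _).trans ?_
    rw [hnorm]
    linarith
  rw [div_lt_iff₀ hδ] at hR2
  have h3 : R * δ ≤ R * ‖M.act (U'⁻¹ * U) (A.symm (emb φ (cmb ψ η 0) 0)) - A'.symm (emb φ' (cmb ψ' η' 0) 0)‖ :=
    mul_le_mul_of_nonneg_left h1 hR0.le
  linarith

end Vale.Agent.P353.AN.REP
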