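import Vale.Agent.P353.AN.REP.Stmt
import Vale.Agent.P353.AN.G.SmInt
import Vale.Agent.P353.AN.G.Act
import Vale.Agent.P353.AN.G.QAct
import Vale.Agent.P353.AN.G.AvgD
import Vale.Agent.P353.AN.G.AvgC
import Vale.Agent.P353.AN.G.AvgG

/-! # P353, all `N`, block REP, R1: averages over `SU(N)` do not change pairings with gauge invariant functions -/

open MeasureTheory Filter Topology
open scoped ContDiff

namespace Vale.Agent.P353.AN.REP

open Vale.Agent.P353.Z Vale.Agent.P353.Z.U Vale.Agent.P353.Z.AN Vale.Agent.P353.AN.G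

universe w

variable {N d : ℕ} {F : Type w} [NormedAddCommGroup F] [InnerProductSpace ℂ F]

/-- conjugated pairing of an average with a core function -/
theorem ipr_pair [FiniteDimensional ℂ F] (M : BFSS.Model N d F) (h22 : ActStmt M)
    {f u : Cfg d → F} (hf : Continuous f) (hu : Continuous u) (hc : HasCompactSupport u)
    (he : ∀ U x, u (M.act U x) = M.S U (u x)) :
    ∫ x, (inner ℂ (u x) (avg M f x) : ℂ) = ∫ x, (inner ℂ (u x) (f x) : ℂ) := by
  have e1 : ∀ x, (inner ℂ (u x) (avg M f x) : ℂ) =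
      ∫ U, (inner ℂ (u x) (M.S U (f (M.act U⁻¹ x))) : ℂ) ∂(hm N) :=
    fun x => AvgG.self_eq M h22 hf x _
  rw [integral_congr_ae (Eventually.of_forall e1), AvgG.swap_int M h22 hf hu hc]
  have e3 : ∀ U : BFSS.SU N,
      ∫ x, (inner ℂ (u x) (M.S U (f (M.act U⁻¹ x))) : ℂ) = ∫ x, (inner ℂ (u x) (f x) : ℂ) := by
    intro U
    rw [← AvgG.int_act M h22 U]
    have e4 : ∀ x, (inner ℂ (u (M.act U x))
        (M.S U (f (M.act U⁻¹ (M.act U x)))) : ℂ) = inner ℂ (u x) (f x) := by
      intro x
      rw [← h22.1, inv_mul_cancel, h22.2.1, he U x, AvgG.inner_S]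
    exact integral_congr_ae (Eventually.of_forall e4)
  rw [integral_congr_ae (Eventually.of_forall e3), integral_const]
  simp

/-- **R1** averages do not change the pairing with gauge invariant functions -/
theorem ipr_stmt (M : BFSS.Model N d F) (h0 : CoreStmt M) : IprStmt M := by
  intro hF S hS f hf
  have h22 : ActStmt M := act_stmt M
  have h23 : QActStmt M := qAct M
  have h24 : AvgDStmt M := avgD M (smInt (BFSS.SU N) (Cfg d)) h22 h23
  have h25 : AvgCStmt M := avgC M h22
  have hw : Setup.Tst (avg M f) := (h24 S hS f hf).1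
  have hcore := h25 f hf hw
  refine ⟨⟨hw, fun C x => gaussLaw M S hS _ hcore C x⟩, fun u hu => ?_⟩
  have hcu : M.IsCore u := h0 hF S hS u hu.1 hu.2
  have h1 := ipr_pair M h22 hf.1.continuous hu.1.1.continuous hu.1.2 hcu.2.2
  have h2 : ∀ g : Cfg d → F, ipr g u = (starRingEnd ℂ) (∫ x, (inner ℂ (u x) (g x) : ℂ)) := by
    intro g
    unfold ipr
    rw [← integral_conj]
    refine integral_congr_ae (Eventually.of_forall fun x => ?_)
    exact (inner_conj_symm (g x) (u x)).symm
  rw [h2, h2, h1]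

end Vale.Agent.P353.AN.REP
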