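import Vale.Agent.P353.AN.REP.Stmt
import Vale.Agent.P353.AN.GL.Mea
import Vale.Agent.P353.AN.GL.Sup
import Vale.Agent.P353.AN.G.Act

/-! # P353, all `N`, block REP, R4 (first part): smoothness, gauge invariance and support of the averaged functionals -/

open MeasureTheory Filter Topology
open scoped ContDiff

namespace Vale.Agent.P353.AN.REP

open Vale.Agent.P353.Z Vale.Agent.P353.Z.U Vale.Agent.P353.Z.AN Vale.Agent.P353.AN.G

variable {N d dh dm r ds : ℕ} {F : Type*} [NormedAddCommGroup F] [InnerProductSpace ℂ F]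

theorem ob_hz (φ : Spl dh dm d) (ψ : Spz r ds dh) : ContDiff ℝ ∞ fun x : Cfg d => hz ψ (zy φ x) := by
  rw [contDiff_euclidean]
  intro p
  simp only [hz, zy]
  fun_prop

theorem ob_hs (φ : Spl dh dm d) (ψ : Spz r ds dh) : ContDiff ℝ ∞ fun x : Cfg d => hs ψ (zy φ x) := by
  rw [contDiff_euclidean]
  intro p
  simp only [hs, zy]
  fun_prop

theorem ob_pm (φ : Spl dh dm d) : ContDiff ℝ ∞ fun x : Cfg d => pm φ x := by
  rw [contDiff_euclidean]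
  intro p
  simp only [pm]
  fun_prop

theorem ob_tst (φ : Spl dh dm d) (ψ : Spz r ds dh) (b : Cfg r × Cfg ds × Cfg dm → F) (h1 : ContDiff ℝ ∞ b)
    (h2 : HasCompactSupport b) (R : ℝ) (hR : 0 < R) : Setup.Tst (Zb φ ψ b R) := by
  refine ⟨?_, ?_⟩
  · unfold Zb
    refine contDiff_const.smul (h1.comp ?_)
    exact ((ob_hz φ ψ).const_smul R⁻¹).prodMk ((ob_hs φ ψ).prodMk ((ob_pm φ).const_smul (Real.sqrt R)))
  · obtain ⟨L, hL⟩ := h2.isCompact.isBounded.exists_norm_le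
    have hs0 : 0 < Real.sqrt R := Real.sqrt_pos.2 hR
    refine HasCompactSupport.of_support_subset_isCompact
      (isCompact_closedBall (0 : Cfg d) (Real.sqrt ((R * L) ^ 2 + L ^ 2 + ((Real.sqrt R)⁻¹ * L) ^ 2))) ?_
    intro x hx
    have hbx : b (R⁻¹ • hz ψ (zy φ x), hs ψ (zy φ x), Real.sqrt R • pm φ x) ≠ 0 := by
      intro h0
      apply hx
      simp [Zb, h0]
    have h3 := hL _ (subset_tsupport _ hbx)
    have h4 : ‖R⁻¹ • hz ψ (zy φ x)‖ ≤ L := (norm_fst_le _).trans h3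
    have h5 : ‖hs ψ (zy φ x)‖ ≤ L := ((norm_fst_le _).trans (norm_snd_le _)).trans h3
    have h6 : ‖Real.sqrt R • pm φ x‖ ≤ L := ((norm_snd_le _).trans (norm_snd_le _)).trans h3
    rw [norm_smul, Real.norm_eq_abs, abs_of_pos (by positivity)] at h4 h6
    have h4' : ‖hz ψ (zy φ x)‖ ≤ R * L := by
      calc ‖hz ψ (zy φ x)‖ = R * (R⁻¹ * ‖hz ψ (zy φ x)‖) := by field_simp
        _ ≤ R * L := mul_le_mul_of_nonneg_left h4 hR.le
    have h6' : ‖pm φ x‖ ≤ (Real.sqrt R)⁻¹ * L := by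
      calc ‖pm φ x‖ = (Real.sqrt R)⁻¹ * (Real.sqrt R * ‖pm φ x‖) := by field_simp
        _ ≤ (Real.sqrt R)⁻¹ * L := mul_le_mul_of_nonneg_left h6 (by positivity)
    rw [mem_closedBall_zero_iff]
    refine Real.le_sqrt_of_sq_le ?_
    rw [sup_norm_sq φ ψ x]
    gcongr

theorem ob_zero (S : Setup d F) (φ : Spl dh dm d) (ψ : Spz r ds dh) (hdm : 0 < dm) : (0 : Cfg r) ∉ Reg S φ ψ := by
  intro h
  have h1 : ∀ i, Dz S φ ψ 0 i = 0 := by
    intro i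
    ext B C
    have h2 : (cmb ψ (0 : Cfg r) (0 : Cfg ds)) = 0 := by
      ext p
      simp only [cmb, PiLp.zero_apply]
      rcases ψ.symm p.2 with a | a <;> simp
    simp [Dz, Setup.Dy, Setup.Dm, h2]
  have h2 := h (fun _ => 1) fun i => by rw [h1 i]; simp
  have h3 := congrFun h2 ⟨0, hdm⟩
  simp at h3

theorem ob_supp (S : Setup d F) (φ : Spl dh dm d) (ψ : Spz r ds dh) (hdm : 0 < dm)
    (b : Cfg r × Cfg ds × Cfg dm → F) (hb : IsB S φ ψ b) :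
    ∃ c : ℝ, 0 < c ∧ ∀ R : ℝ, 0 < R → ∀ x : Cfg d, ‖x‖ ≤ c * R → Zb φ ψ b R x = 0 := by
  have hK : IsCompact (Prod.fst '' tsupport b) := hb.cs.isCompact.image continuous_fst
  have h0 : (0 : Cfg r) ∈ (Prod.fst '' tsupport b)ᶜ := by
    rintro ⟨q, hq, hq0⟩
    exact ob_zero S φ ψ hdm (hq0 ▸ hb.reg q hq)
  obtain ⟨c, hc, hball⟩ := Metric.isOpen_iff.1 hK.isClosed.isOpen_compl 0 h0
  refine ⟨c / 2, by positivity, fun R hR x hx => ?_⟩
  by_contra hne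
  have hbx : b (R⁻¹ • hz ψ (zy φ x), hs ψ (zy φ x), Real.sqrt R • pm φ x) ≠ 0 := by
    intro h0
    apply hne
    simp [Zb, h0]
  have h1 : R⁻¹ • hz ψ (zy φ x) ∈ Prod.fst '' tsupport b := ⟨_, subset_tsupport _ hbx, rfl⟩
  have h2 : R⁻¹ • hz ψ (zy φ x) ∉ Metric.ball (0 : Cfg r) c := fun h => hball h h1
  apply h2
  rw [mem_ball_zero_iff, norm_smul, Real.norm_eq_abs, abs_of_pos (inv_pos.2 hR)]
  have h3 : ‖hz ψ (zy φ x)‖ ≤ ‖x‖ := by
    refine abs_le_of_sq_le_sq' ?_ (norm_nonneg _) |>.2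
    rw [sup_norm_sq φ ψ x]
    nlinarith [sq_nonneg ‖hs ψ (zy φ x)‖, sq_nonneg ‖pm φ x‖]
  calc R⁻¹ * ‖hz ψ (zy φ x)‖ ≤ R⁻¹ * (c / 2 * R) := mul_le_mul_of_nonneg_left (h3.trans hx) (by positivity)
    _ = c / 2 := by field_simp
    _ < c := by linarith

theorem one_b (M : BFSS.Model N d F) (hI : IprStmt M) (hF : FiniteDimensional ℂ F) (S : Setup d F) (hM : Rep M S)
    (φ : Spl dh dm d) (ψ : Spz r ds dh) (hdm : 0 < dm) (b : Cfg r × Cfg ds × Cfg dm → F) (hb : IsB S φ ψ b) :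
    (∀ R : ℝ, 0 < R → Setup.Tst (Zb φ ψ b R)) ∧ (∀ R : ℝ, 0 < R → S.GInv (avg M (Zb φ ψ b R))) ∧
    (∃ c : ℝ, 0 < c ∧ ∀ᶠ R in atTop, ∀ x : Cfg d, ‖x‖ ≤ c * R → avg M (Zb φ ψ b R) x = 0) := by
  have ht : ∀ R : ℝ, 0 < R → Setup.Tst (Zb φ ψ b R) := fun R hR => ob_tst φ ψ b hb.sm hb.cs R hR
  refine ⟨ht, fun R hR => (hI hF S hM _ (ht R hR)).1, ?_⟩
  obtain ⟨c, hc, h⟩ := ob_supp S φ ψ hdm b hb
  refine ⟨c, hc, (eventually_gt_atTop 0).mono fun R hR x hx => ?_⟩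
  unfold avg
  have h1 : ∀ U : BFSS.SU N, M.S U (Zb φ ψ b R (M.act U⁻¹ x)) = 0 := by
    intro U
    rw [h R hR (M.act U⁻¹ x) (by rw [(act_stmt M).2.2.2.2.1 U⁻¹ x]; exact hx), map_zero]
  simp [h1]

end Vale.Agent.P353.AN.REP
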