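import Vale.Agent.P353.AN.REP.OneE
import Vale.Agent.P353.AN.REP.OneB

/-! # P353, all `N`, block REP, R4 OneStmt: representatives of one type (helper7, helper632) -/

open MeasureTheory Filter Topology
open scoped ContDiff

namespace Vale.Agent.P353.AN.REP

open Vale.Agent.P353.Z Vale.Agent.P353.Z.U Vale.Agent.P353.Z.AN Vale.Agent.P353.AN.G

variable {N d : ℕ} {F : Type*} [NormedAddCommGroup F] [InnerProductSpace ℂ F]

/-- **R4** -/
theorem one_stmt (M : BFSS.Model N d F) (h : ∀ S : Setup d F, GluKStmt S ∧ ApxStmt S ∧ WnStmt S) (hI : IprStmt M) :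
    OneStmt M := by
  intro hF S hM dh dm r ds φ ψ hs hZ hdm Om hOc hO χ hχ a K hK hKR ha ha2 hak ε hε
  obtain ⟨hG, hA, hW⟩ := h S
  obtain ⟨b, hb, hbn, hest⟩ := one_est S hG hA hW hF φ ψ hs hZ Om hOc hO χ hχ a K hK hKR ha ha2 hak ε hε
  obtain ⟨t1, t2, t3⟩ := one_b M hI hF S hM φ ψ hdm b hb
  refine ⟨b, hb, hbn, t2, t3, fun R u A hu => ?_⟩
  filter_upwards [hest R u A hu, hu.R_lim.eventually (eventually_gt_atTop 0)] with n hn hR
  have h1 := (hI hF S hM (Zb φ ψ b (R n)) (t1 (R n) hR)).2 (u n) (hu.inv n)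
  rw [h1]
  exact hn

end Vale.Agent.P353.AN.REP
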