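import Vale.Agent.P353.AN.REP.Stmt
import Vale.Agent.P353.AN.GL.Gau
import Vale.Agent.P353.Z.U.L1a

/-! # P353, all `N`, block REP, R3: weighted norm of Gaussian profiles (prover helper213) -/

open MeasureTheory Filter Topology
open scoped ContDiff

namespace Vale.Agent.P353.AN.REP

open Vale.Agent.P353.Z Vale.Agent.P353.Z.U Vale.Agent.P353.Z.AN Vale.Agent.P353.AN.G

section WnA

variable {E : Type*} [NormedAddCommGroup E] [InnerProductSpace ℝ E] [FiniteDimensional ℝ E]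

/-- uniform bounds of positive definite forms over a compact set -/
lemma wn_bd {X : Type*} [TopologicalSpace X] {K : Set X} (hK : IsCompact K) (Q : X → E → ℝ)
    (hc : ContinuousOn (fun p : X × E => Q p.1 p.2) (K ×ˢ Set.univ))
    (hh : ∀ η (t : ℝ) x, Q η (t • x) = t ^ 2 * Q η x) (hp : ∀ η ∈ K, ∀ x, x ≠ 0 → 0 < Q η x) :
    ∃ c M : ℝ, 0 < c ∧ 0 < M ∧ ∀ η ∈ K, ∀ x, c * ‖x‖ ^ 2 ≤ Q η x ∧ Q η x ≤ M * ‖x‖ ^ 2 := by
  have h0 : ∀ η, Q η 0 = 0 := fun η => by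
    have := hh η 0 0
    rwa [smul_zero, zero_pow two_ne_zero, zero_mul] at this
  have hS : ∀ η ∈ K, ∀ x : E, x ≠ 0 → (η, ‖x‖⁻¹ • x) ∈ K ×ˢ Metric.sphere (0 : E) 1 := by
    intro η hη x hx
    refine ⟨hη, ?_⟩
    rw [mem_sphere_zero_iff_norm, norm_smul, norm_inv, norm_norm, inv_mul_cancel₀ (norm_ne_zero_iff.2 hx)]
  have hcomp : IsCompact (K ×ˢ Metric.sphere (0 : E) 1) := hK.prod (isCompact_sphere _ _)
  have hc' : ContinuousOn (fun p : X × E => Q p.1 p.2) (K ×ˢ Metric.sphere (0 : E) 1) :=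
    hc.mono (Set.prod_mono_right (Set.subset_univ _))
  have key : ∀ x : E, x ≠ 0 → ∀ η, Q η x = ‖x‖ ^ 2 * Q η (‖x‖⁻¹ • x) := by
    intro x hx η
    have hn : ‖x‖ ≠ 0 := norm_ne_zero_iff.2 hx
    rw [hh]
    field_simp
  rcases (K ×ˢ Metric.sphere (0 : E) 1).eq_empty_or_nonempty with he | hne
  · refine ⟨1, 1, one_pos, one_pos, fun η hη x => ?_⟩
    by_cases hx : x = 0
    · rw [hx, h0]
      simp
    · have := hS η hη x hx
      rw [he] at this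
      exact absurd this (Set.notMem_empty _)
  · obtain ⟨p0, hp0, hmin⟩ := hcomp.exists_isMinOn hne hc'
    obtain ⟨p1, hp1, hmax⟩ := hcomp.exists_isMaxOn hne hc'
    have hpos : ∀ p ∈ K ×ˢ Metric.sphere (0 : E) 1, 0 < Q p.1 p.2 := by
      intro p hp'
      refine hp p.1 hp'.1 p.2 ?_
      rintro h
      have := hp'.2
      rw [h] at this
      simp at this
    refine ⟨Q p0.1 p0.2, Q p1.1 p1.2, hpos p0 hp0, hpos p1 hp1, fun η hη x => ?_⟩
    by_cases hx : x = 0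
    · rw [hx, h0]
      simp
    · have h1 := hmin (hS η hη x hx)
      have h2 := hmax (hS η hη x hx)
      simp only [Set.mem_ofPred_eq] at h1 h2
      rw [key x hx η]
      constructor
      · rw [mul_comm]
        exact mul_le_mul_of_nonneg_left h1 (by positivity)
      · rw [mul_comm (Q p1.1 p1.2)]
        exact mul_le_mul_of_nonneg_left h2 (by positivity)

end WnA

section WnB

variable {r ds dm : ℕ}

lemma wn_qX_cont : Continuous fun p : Matrix (Fin dm) (Fin dm) ℝ × Cfg dm => qX p.1 p.2 := by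
  unfold qX
  refine continuous_finsetSum _ fun i _ => continuous_finsetSum _ fun B _ => continuous_finsetSum _ fun C _ => ?_
  have h1 : Continuous fun p : Matrix (Fin dm) (Fin dm) ℝ × Cfg dm => p.1 B C := continuous_fst.matrix_elem B C
  fun_prop

lemma wn_gQ_cont : Continuous fun p : Matrix (Fin dm) (Fin dm) ℝ × EuclideanSpace ℝ (Fin dm) => gauQ p.1 p.2 := by
  unfold gauQ
  refine continuous_finsetSum _ fun B _ => continuous_finsetSum _ fun C _ => ?_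
  have h1 : Continuous fun p : Matrix (Fin dm) (Fin dm) ℝ × EuclideanSpace ℝ (Fin dm) => (p.1 * p.1 * p.1) B C :=
    ((continuous_fst.matrix_mul continuous_fst).matrix_mul continuous_fst).matrix_elem B C
  fun_prop

end WnB

section WnC

variable {r ds dm : ℕ}

/-- the two integrals of comparison -/
lemma wn_Nf {κ : ℝ} (hκ : 0 < κ) {D : Fin 9 → Matrix (Fin dm) (Fin dm) ℝ} {Om : Matrix (Fin dm) (Fin dm) ℝ}
    (hO : IsOm κ D Om) {c' M' M : ℝ} (hc' : 0 < c') (hM' : 0 < M') (hM : 0 < M)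
    (hq : ∀ X : Cfg dm, qX Om X ≤ M * ‖X‖ ^ 2)
    (hq' : ∀ a : EuclideanSpace ℝ (Fin dm), c' * ‖a‖ ^ 2 ≤ gauQ Om a ∧ gauQ Om a ≤ M' * ‖a‖ ^ 2) :
    Nf κ Om ^ 2 ≤ (∫ a : EuclideanSpace ℝ (Fin dm), Real.exp (-((1 * (κ ^ 2)⁻¹ * c') * ‖a‖ ^ 2))) /
      ((∫ a : EuclideanSpace ℝ (Fin dm), Real.exp (-((1 / 2 * (κ ^ 2)⁻¹ * M') * ‖a‖ ^ 2))) ^ 2 *
        ∫ X : Cfg dm, Real.exp (-(M * ‖X‖ ^ 2))) := by
  have i1 : Integrable fun a : EuclideanSpace ℝ (Fin dm) => Real.exp (-((1 * (κ ^ 2)⁻¹ * c') * ‖a‖ ^ 2)) :=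
    gau_int_sq (by positivity)
  have i2 : Integrable fun a : EuclideanSpace ℝ (Fin dm) => Real.exp (-((1 / 2 * (κ ^ 2)⁻¹ * M') * ‖a‖ ^ 2)) :=
    gau_int_sq (by positivity)
  have i3 : Integrable fun X : Cfg dm => Real.exp (-(M * ‖X‖ ^ 2)) := gau_int_sq hM
  have p1 : 0 < ∫ a : EuclideanSpace ℝ (Fin dm), Real.exp (-((1 * (κ ^ 2)⁻¹ * c') * ‖a‖ ^ 2)) := integral_exp_pos i1
  have p2 : 0 < ∫ a : EuclideanSpace ℝ (Fin dm), Real.exp (-((1 / 2 * (κ ^ 2)⁻¹ * M') * ‖a‖ ^ 2)) :=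
    integral_exp_pos i2
  have p3 : 0 < ∫ X : Cfg dm, Real.exp (-(M * ‖X‖ ^ 2)) := integral_exp_pos i3
  have b1 : Gs κ Om 1 ≤ ∫ a : EuclideanSpace ℝ (Fin dm), Real.exp (-((1 * (κ ^ 2)⁻¹ * c') * ‖a‖ ^ 2)) := by
    refine integral_mono (gau_Gs_int hκ hO one_pos) i1 fun a => ?_
    refine Real.exp_le_exp.2 (neg_le_neg ?_)
    rw [mul_assoc]
    exact mul_le_mul_of_nonneg_left (hq' a).1 (by positivity)
  have b2 : ∫ a : EuclideanSpace ℝ (Fin dm), Real.exp (-((1 / 2 * (κ ^ 2)⁻¹ * M') * ‖a‖ ^ 2)) ≤ Gs κ Om (1 / 2) := by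
    refine integral_mono i2 (gau_Gs_int hκ hO (s := 1 / 2) (by norm_num)) fun a => ?_
    refine Real.exp_le_exp.2 (neg_le_neg ?_)
    rw [mul_assoc (1 / 2 * (κ ^ 2)⁻¹)]
    exact mul_le_mul_of_nonneg_left (hq' a).2 (by positivity)
  have b3 : ∫ X : Cfg dm, Real.exp (-(M * ‖X‖ ^ 2)) ≤ Kx Om := by
    refine integral_mono i3 (gau_Kx_int hO) fun X => ?_
    exact Real.exp_le_exp.2 (neg_le_neg (hq X))
  have q1 := gau_Gs_pos hκ hO one_pos
  have q2 := gau_Gs_pos hκ hO (s := 1 / 2) (by norm_num)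
  have q3 := gau_Kx_pos hO
  have e : Nf κ Om ^ 2 = Gs κ Om 1 / (Gs κ Om (1 / 2) ^ 2 * Kx Om) := by
    unfold Nf
    exact Real.sq_sqrt (by positivity)
  rw [e]
  exact div_le_div₀ p1.le b1 (by positivity) (mul_le_mul (pow_le_pow_left₀ p2.le b2 2) b3 p3.le (by positivity))

/-- pointwise bound of the weighted density -/
lemma wn_pt (dm : ℕ) {c : ℝ} (hc : 0 < c) : ∃ C1 : ℝ, 0 ≤ C1 ∧ ∀ (n q : ℝ) (X : Cfg dm), 0 ≤ n → c * ‖X‖ ^ 2 ≤ q →
    (1 + ‖X‖ ^ 2) ^ (dm + 1) * (n * Real.exp (-q)) ≤ n * C1 * Real.exp (-(c / 2 * ‖X‖ ^ 2)) := by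
  obtain ⟨C1, hC1, hC1b⟩ := l1_poly_gauss (dc := dm) (c := c) (d := c / 2) (by linarith) (2 * (dm + 1))
  refine ⟨C1, hC1, fun n q X hn hq => ?_⟩
  have e2 : Real.exp (-q) ≤ Real.exp (-(c * ‖X‖ ^ 2)) := Real.exp_le_exp.2 (neg_le_neg hq)
  have e3 : (1 + ‖X‖ ^ 2) ^ (dm + 1) ≤ (1 + ‖X‖) ^ (2 * (dm + 1)) := by
    rw [pow_mul]
    refine pow_le_pow_left₀ (by positivity) ?_ _
    nlinarith [norm_nonneg X]
  calc (1 + ‖X‖ ^ 2) ^ (dm + 1) * (n * Real.exp (-q))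
      ≤ (1 + ‖X‖) ^ (2 * (dm + 1)) * (n * Real.exp (-(c * ‖X‖ ^ 2))) :=
        mul_le_mul e3 (mul_le_mul_of_nonneg_left e2 hn) (by positivity) (by positivity)
    _ = n * ((1 + ‖X‖) ^ (2 * (dm + 1)) * Real.exp (-(c * ‖X‖ ^ 2))) := by ring
    _ ≤ n * (C1 * Real.exp (-(c / 2 * ‖X‖ ^ 2))) := mul_le_mul_of_nonneg_left (hC1b X) hn
    _ = _ := by ring

/-- uniform weighted moment of the normalised Gaussians over a compact set -/
lemma wn_mom {κ : ℝ} (hκ : 0 < κ) {K : Set (Cfg r)} (hK : IsCompact K) {Om : Cfg r → Matrix (Fin dm) (Fin dm) ℝ}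
    (hO : ContinuousOn Om K) (D : Cfg r → Fin 9 → Matrix (Fin dm) (Fin dm) ℝ) (hI : ∀ η ∈ K, IsOm κ (D η) (Om η)) :
    ∃ C : ℝ, 0 < C ∧ ∀ η ∈ K, ∫⁻ X : Cfg dm, ENNReal.ofReal ((1 + ‖X‖ ^ 2) ^ (dm + 1)) *
      ENNReal.ofReal ((Nf κ (Om η) * Real.exp (-(1 / 2) * qX (Om η) X)) ^ 2) ≤ ENNReal.ofReal C := by
  have hc1 : ContinuousOn (fun p : Cfg r × Cfg dm => (Om p.1, p.2)) (K ×ˢ Set.univ) :=
    (hO.comp continuousOn_fst fun p hp => hp.1).prodMk continuousOn_snd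
  have hc2 : ContinuousOn (fun p : Cfg r × Cfg dm => qX (Om p.1) p.2) (K ×ˢ Set.univ) :=
    Continuous.comp_continuousOn (g := fun p : Matrix (Fin dm) (Fin dm) ℝ × Cfg dm => qX p.1 p.2)
      (f := fun p : Cfg r × Cfg dm => (Om p.1, p.2)) wn_qX_cont hc1
  have hc3 : ContinuousOn (fun p : Cfg r × EuclideanSpace ℝ (Fin dm) => (Om p.1, p.2)) (K ×ˢ Set.univ) :=
    (hO.comp continuousOn_fst fun p hp => hp.1).prodMk continuousOn_snd
  have hc4 : ContinuousOn (fun p : Cfg r × EuclideanSpace ℝ (Fin dm) => gauQ (Om p.1) p.2) (K ×ˢ Set.univ) :=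
    Continuous.comp_continuousOn (g := fun p : Matrix (Fin dm) (Fin dm) ℝ × EuclideanSpace ℝ (Fin dm) => gauQ p.1 p.2)
      (f := fun p : Cfg r × EuclideanSpace ℝ (Fin dm) => (Om p.1, p.2)) wn_gQ_cont hc3
  obtain ⟨c, M, hc, hM, hq⟩ := wn_bd (E := Cfg dm) hK (fun η X => qX (Om η) X) hc2
    (fun η t x => gau_qX_smul (Om η) t x) (fun η hη x hx => gau_qX_pos (hI η hη) x hx)
  obtain ⟨c', M', hc', hM', hq'⟩ := wn_bd (E := EuclideanSpace ℝ (Fin dm)) hK (fun η X => gauQ (Om η) X) hc4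
    (fun η t x => gauQ_smul (Om η) t x) (fun η hη x hx => gauQ_pos (hI η hη) x hx)
  obtain ⟨C1, hC1, hC1b⟩ := wn_pt dm hc
  have i4 : Integrable fun X : Cfg dm => Real.exp (-(c / 2 * ‖X‖ ^ 2)) := gau_int_sq (by positivity)
  have p4 : 0 < ∫ X : Cfg dm, Real.exp (-(c / 2 * ‖X‖ ^ 2)) := integral_exp_pos i4
  obtain ⟨N0, hN0, hN⟩ : ∃ N0 : ℝ, 0 ≤ N0 ∧ ∀ η ∈ K, Nf κ (Om η) ^ 2 ≤ N0 :=
    ⟨_, by positivity, fun η hη => wn_Nf hκ (hI η hη) hc' hM' hM (fun X => (hq η hη X).2) (fun a => hq' η hη a)⟩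
  refine ⟨N0 * C1 * (∫ X : Cfg dm, Real.exp (-(c / 2 * ‖X‖ ^ 2))) + 1, by positivity, fun η hη => ?_⟩
  have hpt : ∀ X : Cfg dm, (1 + ‖X‖ ^ 2) ^ (dm + 1) * (Nf κ (Om η) * Real.exp (-(1 / 2) * qX (Om η) X)) ^ 2 ≤
      N0 * C1 * Real.exp (-(c / 2 * ‖X‖ ^ 2)) := by
    intro X
    have e1 : (Nf κ (Om η) * Real.exp (-(1 / 2) * qX (Om η) X)) ^ 2 = Nf κ (Om η) ^ 2 * Real.exp (-qX (Om η) X) := by
      rw [mul_pow, ← Real.exp_nat_mul]
      congr 2
      push_cast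
      ring
    rw [e1]
    refine (hC1b _ _ X (sq_nonneg _) (hq η hη X).1).trans ?_
    exact mul_le_mul_of_nonneg_right (mul_le_mul_of_nonneg_right (hN η hη) hC1) (Real.exp_pos _).le
  calc ∫⁻ X : Cfg dm, ENNReal.ofReal ((1 + ‖X‖ ^ 2) ^ (dm + 1)) *
      ENNReal.ofReal ((Nf κ (Om η) * Real.exp (-(1 / 2) * qX (Om η) X)) ^ 2)
      ≤ ∫⁻ X : Cfg dm, ENNReal.ofReal (N0 * C1 * Real.exp (-(c / 2 * ‖X‖ ^ 2))) := by
        refine lintegral_mono fun X => ?_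
        rw [← ENNReal.ofReal_mul (by positivity)]
        exact ENNReal.ofReal_le_ofReal (hpt X)
    _ = ENNReal.ofReal (∫ X : Cfg dm, N0 * C1 * Real.exp (-(c / 2 * ‖X‖ ^ 2))) := by
        rw [ofReal_integral_eq_lintegral_ofReal (i4.const_mul _)]
        exact Eventually.of_forall fun X => mul_nonneg (mul_nonneg hN0 hC1) (Real.exp_pos _).le
    _ ≤ ENNReal.ofReal (N0 * C1 * (∫ X : Cfg dm, Real.exp (-(c / 2 * ‖X‖ ^ 2))) + 1) := by
        refine ENNReal.ofReal_le_ofReal ?_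
        rw [integral_const_mul]
        linarith

/-- measurable replacement of `Om` -/
lemma wn_meas {κ : ℝ} {Om : Cfg r → Matrix (Fin dm) (Fin dm) ℝ} (hm : ∀ B C, Measurable fun η => Om η B C) :
    Measurable fun q : Cfg r × Cfg dm => Nf κ (Om q.1) * Real.exp (-(1 / 2) * qX (Om q.1) q.2) := by
  have hq : Measurable fun q : Cfg r × Cfg dm => qX (Om q.1) q.2 := by
    unfold qX
    refine Finset.measurable_fun_sum _ fun i _ => Finset.measurable_fun_sum _ fun B _ =>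
      Finset.measurable_fun_sum _ fun C _ => ?_
    have h1 : Measurable fun q : Cfg r × Cfg dm => Om q.1 B C := (hm B C).comp measurable_fst
    have h2 : Measurable fun q : Cfg r × Cfg dm => q.2 (i, B) :=
      (by fun_prop : Continuous fun q : Cfg r × Cfg dm => q.2 (i, B)).measurable
    have h3 : Measurable fun q : Cfg r × Cfg dm => q.2 (i, C) :=
      (by fun_prop : Continuous fun q : Cfg r × Cfg dm => q.2 (i, C)).measurable
    exact (h2.mul h1).mul h3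
  have hg : Measurable fun q : Cfg r × EuclideanSpace ℝ (Fin dm) => gauQ (Om q.1) q.2 := by
    unfold gauQ
    refine Finset.measurable_fun_sum _ fun B _ => Finset.measurable_fun_sum _ fun C _ => ?_
    have h1 : Measurable fun q : Cfg r × EuclideanSpace ℝ (Fin dm) => (Om q.1 * Om q.1 * Om q.1) B C := by
      simp only [Matrix.mul_apply, Finset.sum_mul]
      refine Finset.measurable_fun_sum _ fun A _ => Finset.measurable_fun_sum _ fun A' _ => ?_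
      exact (((hm _ _).comp measurable_fst).mul ((hm _ _).comp measurable_fst)).mul ((hm _ _).comp measurable_fst)
    have h2 : Measurable fun q : Cfg r × EuclideanSpace ℝ (Fin dm) => q.2 B :=
      (by fun_prop : Continuous fun q : Cfg r × EuclideanSpace ℝ (Fin dm) => q.2 B).measurable
    have h3 : Measurable fun q : Cfg r × EuclideanSpace ℝ (Fin dm) => q.2 C :=
      (by fun_prop : Continuous fun q : Cfg r × EuclideanSpace ℝ (Fin dm) => q.2 C).measurable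
    exact (h2.mul h1).mul h3
  have hG : ∀ s : ℝ, Measurable fun η => Gs κ (Om η) s := by
    intro s
    have h1 : StronglyMeasurable fun q : Cfg r × EuclideanSpace ℝ (Fin dm) =>
        Real.exp (-(s * (κ ^ 2)⁻¹ * gauQ (Om q.1) q.2)) :=
      (Real.measurable_exp.comp (hg.const_mul _).neg).stronglyMeasurable
    exact (StronglyMeasurable.integral_prod_right (ν := (volume : Measure (EuclideanSpace ℝ (Fin dm)))) h1).measurable
  have hKx : Measurable fun η => Kx (Om η) := by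
    have h1 : StronglyMeasurable fun q : Cfg r × Cfg dm => Real.exp (-qX (Om q.1) q.2) :=
      (Real.measurable_exp.comp hq.neg).stronglyMeasurable
    exact (StronglyMeasurable.integral_prod_right (ν := (volume : Measure (Cfg dm))) h1).measurable
  have hN : Measurable fun η => Nf κ (Om η) := by
    unfold Nf
    exact ((hG 1).div (((hG (1 / 2)).pow_const 2).mul hKx)).sqrt
  exact (hN.comp measurable_fst).mul (Real.measurable_exp.comp (hq.const_mul _))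

variable {F : Type*} [NormedAddCommGroup F] [InnerProductSpace ℂ F]

lemma wn_gen1 {m : Cfg r × Cfg dm → ℝ} (hm : Measurable m) {a : Cfg r → Cfg ds → F}
    (ha : StronglyMeasurable (fun q : Cfg r × Cfg ds => a q.1 q.2)) :
    StronglyMeasurable fun q : Cfg r × Cfg ds × Cfg dm => ((m (q.1, q.2.2) : ℝ) : ℂ) • a q.1 q.2.1 := by
  have h3 : Measurable fun q : Cfg r × Cfg ds × Cfg dm => m (q.1, q.2.2) :=
    hm.comp (measurable_fst.prodMk (measurable_snd.comp measurable_snd))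
  have h4 : StronglyMeasurable fun q : Cfg r × Cfg ds × Cfg dm => a q.1 q.2.1 :=
    ha.comp_measurable (measurable_fst.prodMk (measurable_fst.comp measurable_snd))
  have h5 : StronglyMeasurable fun q : Cfg r × Cfg ds × Cfg dm => ((m (q.1, q.2.2) : ℝ) : ℂ) :=
    (Complex.measurable_ofReal.comp h3).stronglyMeasurable
  exact h5.smul h4

lemma wn_genA : Measurable fun q : Cfg r × Cfg ds × Cfg dm => ENNReal.ofReal ((1 + ‖q.2.2‖ ^ 2) ^ (dm + 1)) := by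
  have : Continuous fun q : Cfg r × Cfg ds × Cfg dm => (1 + ‖q.2.2‖ ^ 2) ^ (dm + 1) := by fun_prop
  exact this.measurable.ennreal_ofReal

lemma wn_genB {h : Cfg r × Cfg ds × Cfg dm → ENNReal} (hh : Measurable h) (η : Cfg r) :
    ∫⁻ q : Cfg ds × Cfg dm, h (η, q) ∂(volume.prod volume) = ∫⁻ s : Cfg ds, ∫⁻ X : Cfg dm, h (η, s, X) := by
  have hm : Measurable fun q : Cfg ds × Cfg dm => h (η, q) := hh.comp measurable_prodMk_left
  exact lintegral_prod _ hm.aemeasurable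

lemma wn_genC {h : Cfg r × Cfg ds × Cfg dm → ENNReal} (hh : Measurable h) :
    ∫⁻ q, h q ∂(wM r ds dm) = ∫⁻ η : Cfg r, ∫⁻ s : Cfg ds, ∫⁻ X : Cfg dm,
      ENNReal.ofReal ((1 + ‖X‖ ^ 2) ^ (dm + 1)) * h (η, s, X) := by
  unfold wM
  rw [lintegral_withDensity_eq_lintegral_mul _ wn_genA hh, lintegral_prod _ (wn_genA.mul hh).aemeasurable]
  refine lintegral_congr fun η => ?_
  exact wn_genB (wn_genA.mul hh) η

lemma wn_gen2 {f : Cfg r × Cfg ds × Cfg dm → F} (hf : StronglyMeasurable f) {a : Cfg r → Cfg ds → F}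
    (ha : StronglyMeasurable (fun q : Cfg r × Cfg ds => a q.1 q.2)) {C : ℝ}
    (hC : ∀ η s, ∫⁻ X : Cfg dm, ENNReal.ofReal ((1 + ‖X‖ ^ 2) ^ (dm + 1)) * ‖f (η, s, X)‖ₑ ^ (2 : ℝ) ≤
      ENNReal.ofReal C * ‖a η s‖ₑ ^ (2 : ℝ)) :
    ∫⁻ q, ‖f q‖ₑ ^ (2 : ℝ) ∂(wM r ds dm) ≤
      ENNReal.ofReal C * ∫⁻ q : Cfg r × Cfg ds, ‖a q.1 q.2‖ₑ ^ (2 : ℝ) ∂(volume.prod volume) := by
  have hfm : Measurable fun q : Cfg r × Cfg ds × Cfg dm => ‖f q‖ₑ ^ (2 : ℝ) := hf.enorm.pow_const _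
  have ham : Measurable fun q : Cfg r × Cfg ds => ‖a q.1 q.2‖ₑ ^ (2 : ℝ) := ha.enorm.pow_const _
  have e1 := wn_genC hfm
  have e2 := lintegral_prod (μ := (volume : Measure (Cfg r))) (ν := (volume : Measure (Cfg ds))) _ ham.aemeasurable
  rw [e1, e2, ← lintegral_const_mul' _ _ ENNReal.ofReal_ne_top]
  refine lintegral_mono fun η => ?_
  rw [← lintegral_const_mul' _ _ ENNReal.ofReal_ne_top]
  exact lintegral_mono fun s => hC η s

lemma wn_ent {K : Set (Cfg r)} (hK : IsCompact K) {Om : Cfg r → Matrix (Fin dm) (Fin dm) ℝ}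
    (hO : ContinuousOn Om K) : ∃ Om' : Cfg r → Matrix (Fin dm) (Fin dm) ℝ, (∀ η ∈ K, Om' η = Om η) ∧
      ∀ B C, Measurable fun η => Om' η B C := by
  classical
  refine ⟨K.piecewise Om (fun _ => 1), fun η h => Set.piecewise_eq_of_mem _ _ _ h, fun B C => ?_⟩
  have h0 : Continuous fun A : Matrix (Fin dm) (Fin dm) ℝ => A B C := continuous_id.matrix_elem B C
  have h1 : ContinuousOn (fun η => Om η B C) K :=
    Continuous.comp_continuousOn (g := fun A : Matrix (Fin dm) (Fin dm) ℝ => A B C) (f := Om) h0 hO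
  have h2 := h1.measurable_piecewise (g := fun _ => (1 : Matrix (Fin dm) (Fin dm) ℝ) B C) continuousOn_const
    hK.isClosed.measurableSet
  have e : (fun η => K.piecewise Om (fun _ => 1) η B C) =
      K.piecewise (fun η => Om η B C) fun _ => (1 : Matrix (Fin dm) (Fin dm) ℝ) B C := by
    funext η
    by_cases h : η ∈ K
    · rw [Set.piecewise_eq_of_mem _ _ _ h, Set.piecewise_eq_of_mem _ _ _ h]
    · rw [Set.piecewise_eq_of_notMem _ _ _ h, Set.piecewise_eq_of_notMem _ _ _ h]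
  rw [e]
  exact h2

lemma wn_sm {κ : ℝ} {K : Set (Cfg r)} (hK : IsCompact K) {Om : Cfg r → Matrix (Fin dm) (Fin dm) ℝ}
    (hO : ContinuousOn Om K) {a : Cfg r → Cfg ds → F}
    (ha : StronglyMeasurable (fun q : Cfg r × Cfg ds => a q.1 q.2)) (h0 : ∀ η s, a η s ≠ 0 → η ∈ K) :
    StronglyMeasurable (bG κ Om a : Cfg r × Cfg ds × Cfg dm → F) := by
  obtain ⟨Om', hOm', hm⟩ := wn_ent hK hO
  have hw := wn_gen1 (wn_meas (κ := κ) hm) ha
  refine (?_ : (bG κ Om a : Cfg r × Cfg ds × Cfg dm → F) = _) ▸ hw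
  funext q
  by_cases h : a q.1 q.2.1 = 0
  · unfold bG
    rw [h, smul_zero, smul_zero]
  · have h2 : Om' q.1 = Om q.1 := hOm' _ (h0 _ _ h)
    unfold bG
    rw [h2]

lemma wn_bG_enorm (κ : ℝ) (Om : Cfg r → Matrix (Fin dm) (Fin dm) ℝ) (a : Cfg r → Cfg ds → F) (η : Cfg r) (s : Cfg ds)
    (X : Cfg dm) : ‖(bG κ Om a (η, s, X) : F)‖ₑ ^ (2 : ℝ) =
      ENNReal.ofReal ((Nf κ (Om η) * Real.exp (-(1 / 2) * qX (Om η) X)) ^ 2) * ‖a η s‖ₑ ^ (2 : ℝ) := by
  have e1 : ‖(bG κ Om a (η, s, X) : F)‖ₑ =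
      ENNReal.ofReal (|Nf κ (Om η) * Real.exp (-(1 / 2) * qX (Om η) X)|) * ‖a η s‖ₑ := by
    change ‖((Nf κ (Om η) * Real.exp (-(1 / 2) * qX (Om η) X) : ℝ) : ℂ) • a η s‖ₑ = _
    generalize Nf κ (Om η) * Real.exp (-(1 / 2) * qX (Om η) X) = t
    rw [enorm_smul]
    congr 1
    rw [← ofReal_norm, Complex.norm_real, Real.norm_eq_abs]
  rw [e1, ENNReal.mul_rpow_of_nonneg _ _ (by norm_num : (0 : ℝ) ≤ 2),
    ENNReal.ofReal_rpow_of_nonneg (abs_nonneg _) (by norm_num), Real.rpow_two, sq_abs]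

end WnC

/-- **R3** -/
theorem wn_stmt {d : ℕ} {F : Type*} [NormedAddCommGroup F] [InnerProductSpace ℂ F] (S : Setup d F) : WnStmt S := by
  intro dh dm r ds φ ψ K Om hK hO hI
  obtain ⟨C, hC, hCb⟩ := wn_mom S.κ_pos hK hO (Dz S φ ψ) hI
  refine ⟨Real.sqrt C, Real.sqrt_pos.2 hC, fun a ha h0 => ?_⟩
  have hsm := wn_sm (κ := S.κ) hK hO ha h0
  refine ⟨hsm, ?_⟩
  have key : ∫⁻ q, ‖(bG S.κ Om a q : F)‖ₑ ^ (2 : ℝ) ∂(wM r ds dm) ≤
      ENNReal.ofReal C * ∫⁻ q : Cfg r × Cfg ds, ‖a q.1 q.2‖ₑ ^ (2 : ℝ) ∂(volume.prod volume) := by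
    refine wn_gen2 hsm ha fun η s => ?_
    by_cases h : a η s = 0
    · have : ∀ X : Cfg dm, (bG S.κ Om a (η, s, X) : F) = 0 := fun X => by
        unfold bG
        rw [h, smul_zero]
      simp [this]
    · have hη := h0 _ _ h
      simp only [wn_bG_enorm, ← mul_assoc]
      rw [lintegral_mul_const' _ _ (by simp)]
      exact mul_le_mul' (hCb η hη) le_rfl
  have e1 : eLpNorm (bG S.κ Om a : Cfg r × Cfg ds × Cfg dm → F) 2 (wM r ds dm) ^ (2 : ℝ) =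
      ∫⁻ q, ‖(bG S.κ Om a q : F)‖ₑ ^ (2 : ℝ) ∂(wM r ds dm) := by
    have := eLpNorm_nnreal_pow_eq_lintegral (p := 2) (f := (bG S.κ Om a : Cfg r × Cfg ds × Cfg dm → F))
      (μ := wM r ds dm) two_ne_zero
    simpa using this
  have e2 : eLpNorm (fun q : Cfg r × Cfg ds => a q.1 q.2) 2 (volume.prod volume) ^ (2 : ℝ) =
      ∫⁻ q : Cfg r × Cfg ds, ‖a q.1 q.2‖ₑ ^ (2 : ℝ) ∂(volume.prod volume) := by
    have := eLpNorm_nnreal_pow_eq_lintegral (p := 2) (f := (fun q : Cfg r × Cfg ds => a q.1 q.2))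
      (μ := (volume : Measure (Cfg r)).prod (volume : Measure (Cfg ds))) two_ne_zero
    simpa using this
  rw [← ENNReal.rpow_le_rpow_iff (by norm_num : (0 : ℝ) < 2), ENNReal.mul_rpow_of_nonneg _ _ (by norm_num : (0 : ℝ) ≤ 2),
    e1, e2, ENNReal.ofReal_rpow_of_nonneg (Real.sqrt_nonneg _) (by norm_num), Real.rpow_two, Real.sq_sqrt hC.le]
  exact key

end Vale.Agent.P353.AN.REP
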