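import Vale.Agent.P353.AN.GL.All
import Vale.Agent.P353.AN.REP.One
import Vale.Agent.P353.AN.REP.Core
import Vale.Agent.P353.AN.REP.Ipr
import Vale.Agent.P353.AN.REP.Wn
import Vale.Agent.P353.AN.REP.DisjO

/-! # P353, all `N`, block REP: unconditional outputs -/

open MeasureTheory Filter Topology
open scoped ContDiff

namespace Vale.Agent.P353.AN.REP.All

open Vale.Agent.P353.Z Vale.Agent.P353.Z.U Vale.Agent.P353.Z.AN Vale.Agent.P353.AN.G

variable {N d : ℕ} {F : Type*} [NormedAddCommGroup F] [InnerProductSpace ℂ F] (M : BFSS.Model N d F) (S : Setup d F)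

theorem core : CoreStmt M := core_stmt M
theorem ipr : IprStmt M := ipr_stmt M (core M)
theorem apx : ApxStmt S := apx_stmt S
theorem wn : WnStmt S := wn_stmt S
theorem one : OneStmt M := one_stmt M (fun S => ⟨Vale.Agent.P353.Z.AN.All.gluK S, apx S, wn S⟩) (ipr M)
theorem disj : DisjOStmt M := disjO_stmt M

end Vale.Agent.P353.AN.REP.All
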