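import Vale.Agent.P353.AN.REP.Stmt
import Mathlib.Analysis.Normed.Lp.SmoothApprox
import Mathlib.Geometry.Manifold.PartitionOfUnity

/-! # P353, all `N`, block REP, R2: smooth approximation in the weighted norm -/

open MeasureTheory Filter Topology Set
open scoped ContDiff Manifold

namespace Vale.Agent.P353.AN.REP

open Vale.Agent.P353.Z Vale.Agent.P353.Z.U Vale.Agent.P353.Z.AN Vale.Agent.P353.AN.G

variable {d dh dm r ds : ℕ} {F : Type*} [NormedAddCommGroup F] [InnerProductSpace ℂ F]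

private theorem rx_Dz_cont (S : Setup d F) (φ : Spl dh dm d) (ψ : Spz r ds dh) (i : Fin 9) (B C : Fin dm) :
    Continuous fun η : Cfg r => Dz S φ ψ η i B C := by
  have h : (fun η : Cfg r => Dz S φ ψ η i B C) = fun η : Cfg r =>
      ∑ A, S.f (φ (Sum.inr B)) (φ (Sum.inl A)) (φ (Sum.inr C)) *
        Sum.elim (fun a => η (i, a)) (fun _ => (0 : ℝ)) (ψ.symm A) := by
    funext η
    simp [Dz, Setup.Dy, Setup.Dm, cmb, Matrix.of_apply]
  rw [h]
  refine continuous_finsetSum _ fun A _ => continuous_const.mul ?_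
  rcases ψ.symm A with a | b
  · simp only [Sum.elim_inl]; fun_prop
  · simp only [Sum.elim_inr]; fun_prop

theorem rx_isOpen_Reg (S : Setup d F) (φ : Spl dh dm d) (ψ : Spz r ds dh) : IsOpen (Reg S φ ψ) := by
  have h : Reg S φ ψ = {η | (∑ i, (Dz S φ ψ η i).transpose * Dz S φ ψ η i).det ≠ 0} := by
    ext η
    simp only [Reg, mem_ofPred_eq]
    constructor
    · intro hη h0
      obtain ⟨v, hv, hv0⟩ := Matrix.exists_mulVec_eq_zero_iff.2 h0
      refine hv (hη v fun i => ?_)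
      have h1 : v ⬝ᵥ ((∑ i, (Dz S φ ψ η i).transpose * Dz S φ ψ η i).mulVec v) = 0 := by rw [hv0]; simp
      rw [Matrix.sum_mulVec, dotProduct_sum] at h1
      have h2 : ∀ i, v ⬝ᵥ (((Dz S φ ψ η i).transpose * Dz S φ ψ η i).mulVec v) =
          ((Dz S φ ψ η i).mulVec v) ⬝ᵥ ((Dz S φ ψ η i).mulVec v) := by
        intro i
        rw [← Matrix.mulVec_mulVec, Matrix.dotProduct_mulVec, Matrix.vecMul_transpose]
      simp only [h2] at h1
      have h3 := (Finset.sum_eq_zero_iff_of_nonneg (fun i _ => by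
        rw [dotProduct]; exact Finset.sum_nonneg fun j _ => mul_self_nonneg _)).1 h1 i (Finset.mem_univ _)
      exact dotProduct_self_eq_zero.1 h3
    · intro h0 x hx
      by_contra hne
      refine h0 (Matrix.exists_mulVec_eq_zero_iff.1 ⟨x, hne, ?_⟩)
      rw [Matrix.sum_mulVec]
      refine Finset.sum_eq_zero fun i _ => ?_
      rw [← Matrix.mulVec_mulVec, hx i]; simp
  rw [h]
  refine isOpen_ne_fun ?_ continuous_const
  refine Continuous.matrix_det ?_
  refine continuous_finsetSum _ fun i _ => ?_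
  have hc : Continuous fun η : Cfg r => Dz S φ ψ η i :=
    continuous_matrix fun B C => rx_Dz_cont S φ ψ i B C
  exact hc.matrix_transpose.matrix_mul hc

theorem rx_lf (r ds dm : ℕ) : IsLocallyFiniteMeasure (wM r ds dm) := by
  unfold wM
  refine IsLocallyFiniteMeasure.withDensity_ofReal ?_
  fun_prop

/-- approximation with prescribed compact `η`-support `L` -/
theorem apx_in (S : Setup d F) (φ : Spl dh dm d) (ψ : Spz r ds dh) (K L : Set (Cfg r)) (hK : IsCompact K)
    (hL : IsCompact L) (hKL : K ⊆ interior L) (hLR : L ⊆ Reg S φ ψ) (f : Cfg r × Cfg ds × Cfg dm → F)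
    (hf : MemLp f 2 (wM r ds dm)) (hsup : ∀ q, f q ≠ 0 → q.1 ∈ K) (ε : ℝ) (hε : 0 < ε) :
    ∃ b, IsB S φ ψ b ∧ (∀ q ∈ tsupport b, q.1 ∈ L) ∧
      eLpNorm (fun q => b q - f q) 2 (wM r ds dm) ≤ ENNReal.ofReal ε := by
  have := rx_lf r ds dm
  obtain ⟨χ, hχ0, hχ1, hχ⟩ := exists_contMDiffMap_zero_one_of_isClosed (n := ⊤) 𝓘(ℝ, Cfg r)
    (isOpen_interior (s := L)).isClosed_compl hK.isClosed
    (disjoint_left.2 fun x hx hx' => hx (hKL hx'))
  obtain ⟨g, hg1, hg2, hg3⟩ := hf.exist_eLpNorm_sub_le (by norm_num) (by norm_num) hε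
  have hχs : ContDiff ℝ ∞ (χ : Cfg r → ℝ) := χ.contMDiff.contDiff
  have hts : ∀ q ∈ tsupport (fun q : Cfg r × Cfg ds × Cfg dm => χ q.1 • g q), q.1 ∈ L := by
    intro q hq
    have h1 : q ∈ (fun q : Cfg r × Cfg ds × Cfg dm => q.1) ⁻¹' L := by
      refine closure_minimal ?_ (hL.isClosed.preimage continuous_fst) hq
      intro p hp
      by_contra hpL
      apply hp
      have hn : p.1 ∉ interior L := fun h => hpL (interior_subset (s := L) h)
      have : χ p.1 = 0 := hχ0 hn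
      simp [this]
    exact h1
  refine ⟨fun q => χ q.1 • g q, ⟨?_, ?_, fun q hq => hLR (hts q hq)⟩, hts, ?_⟩
  · exact (hχs.comp contDiff_fst).smul hg2
  · exact hg1.smul_left
  · refine le_trans (eLpNorm_mono (g := f - g) fun q => ?_) hg3
    have h1 : χ q.1 • f q = f q := by
      by_cases h : f q = 0
      · simp [h]
      · rw [show χ q.1 = 1 from hχ1 (hsup q h), one_smul]
    have h2 : χ q.1 • g q - f q = χ q.1 • (g q - f q) := by rw [smul_sub, h1]
    rw [h2, norm_smul, Pi.sub_apply, norm_sub_rev (f q)]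
    refine mul_le_of_le_one_left (norm_nonneg _) ?_
    rw [Real.norm_eq_abs, abs_le]
    exact ⟨by linarith [(hχ q.1).1], (hχ q.1).2⟩

theorem apx_stmt (S : Setup d F) : ApxStmt S := by
  intro dh dm r ds φ ψ K hK hKR f hf hsup ε hε
  obtain ⟨L, hL, hKL, hLR⟩ := exists_compact_between hK (rx_isOpen_Reg S φ ψ) hKR
  obtain ⟨b, h1, _, h3⟩ := apx_in S φ ψ K L hK hL hKL hLR f hf hsup ε hε
  exact ⟨b, h1, h3⟩

end Vale.Agent.P353.AN.REP
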