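import Vale.Agent.P353.AN.REP.Stmt
import Vale.Agent.P353.AN.G.Act
import Vale.Agent.P353.AN.GL.Sup

/-! # P353, all `N`, block REP: representatives of different types have disjoint supports (R5, helper435) -/

open MeasureTheory Filter Topology
open scoped ContDiff

namespace Vale.Agent.P353.AN.REP

open Vale.Agent.P353.Z Vale.Agent.P353.Z.U Vale.Agent.P353.Z.AN Vale.Agent.P353.AN.G

variable {N d dh dm r ds : ℕ} {F : Type*} [NormedAddCommGroup F] [InnerProductSpace ℂ F]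

/-- the slice point of `η` depends continuously on `η` -/
lemma h435_emb_cont (φ : Spl dh dm d) (ψ : Spz r ds dh) :
    Continuous fun η : Cfg r => emb φ (cmb ψ η 0) 0 := by
  refine (PiLp.continuous_toLp 2 _).comp (continuous_pi fun p => ?_)
  rcases φ.symm p.2 with A | B
  · show Continuous fun η : Cfg r =>
      Sum.elim (fun a => η (p.1, a)) (fun b => (0 : Cfg ds) (p.1, b)) (ψ.symm A)
    rcases ψ.symm A with a | b
    · exact (EuclideanSpace.proj (𝕜 := ℝ) (p.1, a)).continuous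
    · exact continuous_const
  · exact continuous_const

/-- a continuous function that is positive on a compact product is bounded below -/
lemma h435_pos {G A B : Type*} [TopologicalSpace G] [CompactSpace G] [TopologicalSpace A] [TopologicalSpace B]
    {K : Set A} {K' : Set B} (hK : IsCompact K) (hK' : IsCompact K') {g : G × A × B → ℝ} (hg : Continuous g)
    (hpos : ∀ (U : G), ∀ η ∈ K, ∀ η' ∈ K', 0 < g (U, η, η')) :
    ∃ δ : ℝ, 0 < δ ∧ ∀ (U : G), ∀ η ∈ K, ∀ η' ∈ K', δ ≤ g (U, η, η') := by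
  have hc : IsCompact ((Set.univ : Set G) ×ˢ (K ×ˢ K')) := isCompact_univ.prod (hK.prod hK')
  rcases Set.eq_empty_or_nonempty ((Set.univ : Set G) ×ˢ (K ×ˢ K')) with he | hne'
  · refine ⟨1, one_pos, fun U η hη η' hη' => ?_⟩
    have h1 : (U, η, η') ∈ (Set.univ : Set G) ×ˢ (K ×ˢ K') := ⟨Set.mem_univ _, hη, hη'⟩
    rw [he] at h1
    exact absurd h1 (Set.notMem_empty _)
  · obtain ⟨p, hp, hmin⟩ := hc.exists_isMinOn hne' hg.continuousOn
    obtain ⟨U, η, η'⟩ := p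
    refine ⟨g (U, η, η'), hpos U η hp.2.1 η' hp.2.2, fun U₁ η₁ hη₁ η₁' hη₁' => ?_⟩
    exact hmin (show (U₁, η₁, η₁') ∈ (Set.univ : Set G) ×ˢ (K ×ˢ K') from ⟨Set.mem_univ _, hη₁, hη₁'⟩)

/-- two disjoint families of orbits over compact sets have a positive distance -/
lemma h435_dist {G A B E : Type*} [TopologicalSpace G] [CompactSpace G] [TopologicalSpace A] [TopologicalSpace B]
    [NormedAddCommGroup E] (a : G → E → E) (ha : Continuous fun p : G × E => a p.1 p.2) {e : A → E} (he : Continuous e)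
    {e' : B → E} (he' : Continuous e') {K : Set A} {K' : Set B} (hK : IsCompact K) (hK' : IsCompact K')
    (hne : ∀ (U : G), ∀ η ∈ K, ∀ η' ∈ K', a U (e η) ≠ e' η') :
    ∃ δ : ℝ, 0 < δ ∧ ∀ (U : G), ∀ η ∈ K, ∀ η' ∈ K', δ ≤ ‖a U (e η) - e' η'‖ := by
  have h1 : Continuous fun p : G × A × B => a p.1 (e p.2.1) :=
    ha.comp (continuous_fst.prodMk (he.comp (continuous_fst.comp continuous_snd)))
  have h2 : Continuous fun p : G × A × B => ‖a p.1 (e p.2.1) - e' p.2.2‖ :=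
    (h1.sub (he'.comp (continuous_snd.comp continuous_snd))).norm
  exact h435_pos hK hK' h2 fun U η hη η' hη' => norm_pos_iff.2 (sub_ne_zero.2 (hne U η hη η' hη'))

/-- where the average does not vanish, some translate is close to the scaled slice point of the support -/
lemma h435_near (M : BFSS.Model N d F) (φ : Spl dh dm d) (ψ : Spz r ds dh)
    (b : Cfg r × Cfg ds × Cfg dm → F) (L : ℝ) (hL : ∀ q ∈ tsupport b, ‖q‖ ≤ L) (hL0 : 0 ≤ L) (R : ℝ) (hR : 1 ≤ R)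
    (x : Cfg d) (hx : avg M (Zb φ ψ b R) x ≠ 0) :
    ∃ (U : BFSS.SU N) (η : Cfg r), η ∈ Prod.fst '' tsupport b ∧
      ‖M.act U⁻¹ x - R • emb φ (cmb ψ η 0) 0‖ ≤ 2 * L := by
  obtain ⟨U, hU⟩ : ∃ U : BFSS.SU N, Zb φ ψ b R (M.act U⁻¹ x) ≠ 0 := by
    by_contra hcon
    push Not at hcon
    apply hx
    unfold avg
    have h0 : (fun U : BFSS.SU N => M.S U (Zb φ ψ b R (M.act U⁻¹ x))) = fun _ => 0 := by
      funext U
      rw [hcon U, map_zero]
    rw [h0, integral_zero]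
  have hR0 : 0 < R := lt_of_lt_of_le one_pos hR
  obtain ⟨y, hy⟩ : ∃ y, y = M.act U⁻¹ x := ⟨_, rfl⟩
  rw [← hy] at hU
  have hbq : b (R⁻¹ • hz ψ (zy φ y), hs ψ (zy φ y), Real.sqrt R • pm φ y) ≠ 0 := by
    intro h0
    apply hU
    unfold Zb
    rw [h0, smul_zero]
  have hq := subset_tsupport b (Function.mem_support.2 hbq)
  have hn := hL _ hq
  rw [Prod.norm_def, Prod.norm_def] at hn
  have n2 : ‖hs ψ (zy φ y)‖ ≤ L := le_trans (le_trans (le_max_left _ _) (le_max_right _ _)) hn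
  have n3 : ‖Real.sqrt R • pm φ y‖ ≤ L := le_trans (le_trans (le_max_right _ _) (le_max_right _ _)) hn
  refine ⟨U, R⁻¹ • hz ψ (zy φ y), ⟨_, hq, rfl⟩, ?_⟩
  rw [← hy]
  obtain ⟨η, hη⟩ : ∃ η, η = R⁻¹ • hz ψ (zy φ y) := ⟨_, rfl⟩
  rw [← hη]
  have m1 : hz ψ (zy φ (y - R • emb φ (cmb ψ η 0) 0)) = 0 := by
    rw [sup_hz, hη, smul_smul, mul_inv_cancel₀ hR0.ne', one_smul, sub_self]
  have m3 : ‖pm φ y‖ ≤ L := by
    refine le_trans ?_ n3
    rw [norm_smul, Real.norm_of_nonneg (Real.sqrt_nonneg R)]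
    have h1 : 1 ≤ Real.sqrt R := Real.one_le_sqrt.2 hR
    exact le_mul_of_one_le_left (norm_nonneg _) h1
  have hsq := sup_norm_sq φ ψ (y - R • emb φ (cmb ψ η 0) 0)
  rw [m1, sup_hs, sup_pm, norm_zero] at hsq
  have p2 := pow_le_pow_left₀ (norm_nonneg _) n2 2
  have p3 := pow_le_pow_left₀ (norm_nonneg _) m3 2
  refine le_of_sq_le_sq ?_ (by positivity)
  rw [hsq]
  nlinarith [sq_nonneg L]

/-- **R5** different types have disjoint supports -/
theorem disj_stmt (M : BFSS.Model N d F) : DisjStmt M := by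
  intro S dh dm r ds dh' dm' r' ds' φ ψ φ' ψ' hne b b' hb hb'
  obtain ⟨hmul, hone, hadd, hsm, hnorm, hcont, -⟩ := act_stmt M
  have hsub : ∀ (U : BFSS.SU N) (x y : Cfg d), M.act U (x - y) = M.act U x - M.act U y := by
    intro U x y
    rw [sub_eq_add_neg, hadd, ← neg_one_smul ℝ y, hsm, neg_one_smul, ← sub_eq_add_neg]
  -- bounds of the supports
  obtain ⟨L, hL0, hL⟩ : ∃ L : ℝ, 0 < L ∧ ∀ q ∈ tsupport b, ‖q‖ ≤ L := by
    obtain ⟨C, hC⟩ := hb.cs.isBounded.exists_norm_le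
    exact ⟨max C 1, lt_of_lt_of_le one_pos (le_max_right _ _), fun q hq => (hC q hq).trans (le_max_left _ _)⟩
  obtain ⟨L', hL0', hL'⟩ : ∃ L : ℝ, 0 < L ∧ ∀ q ∈ tsupport b', ‖q‖ ≤ L := by
    obtain ⟨C, hC⟩ := hb'.cs.isBounded.exists_norm_le
    exact ⟨max C 1, lt_of_lt_of_le one_pos (le_max_right _ _), fun q hq => (hC q hq).trans (le_max_left _ _)⟩
  -- the distance of the two orbits
  obtain ⟨K, hK⟩ : ∃ K : Set (Cfg r), K = Prod.fst '' tsupport b := ⟨_, rfl⟩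
  obtain ⟨K', hK'⟩ : ∃ K : Set (Cfg r'), K = Prod.fst '' tsupport b' := ⟨_, rfl⟩
  have hKc : IsCompact K := by
    rw [hK]
    exact hb.cs.isCompact.image continuous_fst
  have hKc' : IsCompact K' := by
    rw [hK']
    exact hb'.cs.isCompact.image continuous_fst
  obtain ⟨δ, hδ, hδg⟩ := h435_dist (fun U y => M.act U y) hcont (h435_emb_cont φ ψ) (h435_emb_cont φ' ψ') hKc hKc'
    (fun U η hη η' hη' => by
      rw [hK] at hη
      rw [hK'] at hη'
      obtain ⟨q, hq, hq1⟩ := hη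
      obtain ⟨q', hq', hq1'⟩ := hη'
      refine hne _ ?_ _ ?_ _
      · rw [← hq1]; exact hb.reg q hq
      · rw [← hq1']; exact hb'.reg q' hq')
  filter_upwards [eventually_ge_atTop (1 : ℝ), eventually_gt_atTop ((2 * L + 2 * L') / δ)] with R hR1 hR2 x
  by_contra hcon
  push Not at hcon
  obtain ⟨hx, hx'⟩ := hcon
  obtain ⟨U, η, hη, hn⟩ := h435_near M φ ψ b L hL hL0.le R hR1 x hx
  obtain ⟨U', η', hη', hn'⟩ := h435_near M φ' ψ' b' L' hL' hL0'.le R hR1 x hx'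
  rw [← hK] at hη
  rw [← hK'] at hη'
  have h1 := hδg (U'⁻¹ * U) η hη η' hη'
  have hR0 : 0 < R := lt_of_lt_of_le one_pos hR1
  have e1 : M.act (U'⁻¹ * U) (M.act U⁻¹ x) = M.act U'⁻¹ x := by
    rw [← hmul, mul_assoc, mul_inv_cancel, mul_one]
  have h2 : R * ‖M.act (U'⁻¹ * U) (emb φ (cmb ψ η 0) 0) - emb φ' (cmb ψ' η' 0) 0‖ ≤ 2 * L + 2 * L' := by
    have e2 : R • (M.act (U'⁻¹ * U) (emb φ (cmb ψ η 0) 0) - emb φ' (cmb ψ' η' 0) 0) =
        (M.act U'⁻¹ x - R • emb φ' (cmb ψ' η' 0) 0) -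
          M.act (U'⁻¹ * U) (M.act U⁻¹ x - R • emb φ (cmb ψ η 0) 0) := by
      rw [hsub, hsm, e1, smul_sub]
      abel
    rw [← Real.norm_of_nonneg hR0.le, ← norm_smul, e2]
    refine (norm_sub_le _ _).trans ?_
    rw [hnorm]
    linarith
  rw [div_lt_iff₀ hδ] at hR2
  have h3 : R * δ ≤ R * ‖M.act (U'⁻¹ * U) (emb φ (cmb ψ η 0) 0) - emb φ' (cmb ψ' η' 0) 0‖ :=
    mul_le_mul_of_nonneg_left h1 hR0.le
  linarith

end Vale.Agent.P353.AN.REP
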