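import Vale.Agent.P353.AN.REP.Apx
import Vale.Agent.P353.AN.GL.GluA

/-! # P353, all `N`, block REP, R4: the estimate (helper7) -/

open MeasureTheory Filter Topology Set
open scoped ContDiff Manifold ENNReal

namespace Vale.Agent.P353.AN.REP

open Vale.Agent.P353.Z Vale.Agent.P353.Z.U Vale.Agent.P353.Z.AN Vale.Agent.P353.AN.G

variable {d dh dm r ds : ℕ} {F : Type*} [NormedAddCommGroup F] [InnerProductSpace ℂ F]

/-- R2 with control of the `η`-support -/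
lemma one_apx (S : Setup d F) (hA : ApxStmt S) (φ : Spl dh dm d) (ψ : Spz r ds dh) {K : Set (Cfg r)}
    (hK : IsCompact K) (hKR : K ⊆ Reg S φ ψ) : ∃ L : Set (Cfg r), IsCompact L ∧ K ⊆ L ∧ L ⊆ Reg S φ ψ ∧
    ∀ f : Cfg r × Cfg ds × Cfg dm → F, MemLp f 2 (wM r ds dm) → (∀ q, f q ≠ 0 → q.1 ∈ K) →
    ∀ ε : ℝ, 0 < ε → ∃ b, IsB S φ ψ b ∧ (∀ q, b q ≠ 0 → q.1 ∈ L) ∧
      eLpNorm (fun q => b q - f q) 2 (wM r ds dm) ≤ ENNReal.ofReal ε := by
  obtain ⟨L, hL, hKL, hLR⟩ := exists_compact_between hK (rx_isOpen_Reg S φ ψ) hKR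
  obtain ⟨χ, hχ0, hχ1, hχ⟩ := exists_contMDiffMap_zero_one_of_isClosed (n := ⊤) 𝓘(ℝ, Cfg r)
    (isOpen_interior (s := L)).isClosed_compl hK.isClosed
    (disjoint_left.2 fun x hx hx' => hx (hKL hx'))
  have hχs : ContDiff ℝ ∞ (χ : Cfg r → ℝ) := χ.contMDiff.contDiff
  refine ⟨L, hL, hKL.trans interior_subset, hLR, fun f hf hsup ε hε => ?_⟩
  obtain ⟨g, hg, hg3⟩ := hA dh dm r ds φ ψ K hK hKR f hf hsup ε hε
  have hsupp : ∀ q : Cfg r × Cfg ds × Cfg dm, χ q.1 • g q ≠ 0 → q.1 ∈ L := by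
    intro p hp
    by_contra hpL
    apply hp
    have hn : p.1 ∉ interior L := fun h => hpL (interior_subset (s := L) h)
    have : χ p.1 = 0 := hχ0 hn
    simp [this]
  refine ⟨fun q => χ q.1 • g q, ⟨?_, ?_, ?_⟩, hsupp, ?_⟩
  · exact (hχs.comp contDiff_fst).smul hg.sm
  · exact hg.cs.smul_left
  · intro q hq
    have h1 : q ∈ (fun q : Cfg r × Cfg ds × Cfg dm => q.1) ⁻¹' L :=
      closure_minimal (fun p hp => hsupp p hp) (hL.isClosed.preimage continuous_fst) hq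
    exact hLR h1
  · refine le_trans (eLpNorm_mono (g := fun q => g q - f q) fun q => ?_) hg3
    have h1 : χ q.1 • f q = f q := by
      by_cases h : f q = 0
      · simp [h]
      · rw [show χ q.1 = 1 from hχ1 (hsup q h), one_smul]
    have h2 : χ q.1 • g q - f q = χ q.1 • (g q - f q) := by rw [smul_sub, h1]
    rw [h2, norm_smul]
    refine mul_le_of_le_one_left (norm_nonneg _) ?_
    rw [Real.norm_eq_abs, abs_le]
    exact ⟨by linarith [(hχ q.1).1], (hχ q.1).2⟩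

/-- `‖(1 - χ_R) f‖ → 0` -/
lemma one_dct {χ : ℝ → Cfg r × Cfg ds × Cfg dm → ℝ} (hχ : IsCo χ) {f : Cfg r × Cfg ds × Cfg dm → F}
    (hf : StronglyMeasurable f) (hf2 : MemLp f 2 (wM r ds dm)) {ε : ℝ} (hε : 0 < ε) :
    ∀ᶠ R in atTop, eLpNorm (fun q => f q - ((χ R q : ℝ) : ℂ) • f q) 2 (wM r ds dm) ≤ ENNReal.ofReal ε := by
  have hlim : Tendsto (fun R => ∫⁻ q, ‖f q - ((χ R q : ℝ) : ℂ) • f q‖ₑ ^ 2 ∂(wM r ds dm)) atTop (𝓝 (∫⁻ _, 0 ∂(wM r ds dm))) := by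
    refine tendsto_lintegral_filter_of_dominated_convergence (fun q => ‖f q‖ₑ ^ 2) ?_ ?_ ?_ ?_
    · refine Eventually.of_forall fun R => ?_
      have h1 : StronglyMeasurable fun q => ((χ R q : ℝ) : ℂ) • f q :=
        (Complex.measurable_ofReal.comp (hχ.meas R)).stronglyMeasurable.smul hf
      exact (hf.sub h1).enorm.pow_const 2
    · refine Eventually.of_forall fun R => ae_of_all _ fun q => ?_
      have h1 : f q - ((χ R q : ℝ) : ℂ) • f q = ((1 - χ R q : ℝ) : ℂ) • f q := by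
        push_cast
        rw [sub_smul, one_smul]
      rw [h1, enorm_smul]
      have h2 : ‖((1 - χ R q : ℝ) : ℂ)‖ₑ ≤ 1 := by
        rw [← ofReal_norm, Complex.norm_real, Real.norm_eq_abs, ← ENNReal.ofReal_one]
        refine ENNReal.ofReal_le_ofReal ?_
        rw [abs_le]
        constructor <;> linarith [(hχ.bd R q).1, (hχ.bd R q).2]
      calc (‖((1 - χ R q : ℝ) : ℂ)‖ₑ * ‖f q‖ₑ) ^ 2 ≤ (1 * ‖f q‖ₑ) ^ 2 := pow_le_pow_left' (mul_le_mul' h2 le_rfl) 2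
        _ = _ := by rw [one_mul]
    · rw [glu_sq]
      exact ENNReal.pow_ne_top hf2.2.ne
    · refine ae_of_all _ fun q => ?_
      have h1 : Tendsto (fun R => f q - ((χ R q : ℝ) : ℂ) • f q) atTop (𝓝 (f q - ((1 : ℝ) : ℂ) • f q)) :=
        tendsto_const_nhds.sub (((Complex.continuous_ofReal.tendsto _).comp (hχ.lim q)).smul_const _)
      rw [Complex.ofReal_one, one_smul, sub_self] at h1
      have h2 := (ENNReal.Tendsto.pow (n := 2) h1.enorm)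
      simpa using h2
  rw [lintegral_zero] at hlim
  have h2 : (0 : ℝ≥0∞) < ENNReal.ofReal ε ^ 2 := ENNReal.pow_pos (ENNReal.ofReal_pos.2 hε) 2
  filter_upwards [hlim.eventually (gt_mem_nhds h2)] with R hR
  exact glu_le_of_sq hR.le

/-- the estimate of R4 -/
theorem one_est (S : Setup d F) (hG : GluKStmt S) (hA : ApxStmt S) (hW : WnStmt S) (hF : FiniteDimensional ℂ F)
    (φ : Spl dh dm d) (ψ : Spz r ds dh) (hs : S.IsSub φ) (hZ : IsZ S φ ψ) (Om : Cfg r → Matrix (Fin dm) (Fin dm) ℝ)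
    (hOc : ContinuousOn Om (Reg S φ ψ)) (hO : ∀ η ∈ Reg S φ ψ, IsOm S.κ (Dz S φ ψ η) (Om η))
    (χ : ℝ → Cfg r × Cfg ds × Cfg dm → ℝ) (hχ : IsCo χ) (a : Cfg r → Cfg ds → F) (K : Set (Cfg r)) (hK : IsCompact K)
    (hKR : K ⊆ Reg S φ ψ) (ha : StronglyMeasurable (fun q : Cfg r × Cfg ds => a q.1 q.2))
    (ha2 : MemLp (fun q : Cfg r × Cfg ds => a q.1 q.2) 2 (volume.prod volume)) (hak : ∀ η s, a η s ≠ 0 → η ∈ K)
    (ε : ℝ) (hε : 0 < ε) :
    ∃ b : Cfg r × Cfg ds × Cfg dm → F, IsB S φ ψ b ∧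
    eLpNorm (fun q => b q - bG S.κ Om a q) 2 (wM r ds dm) ≤ ENNReal.ofReal ε ∧
    ∀ (R : ℕ → ℝ) (u : ℕ → Cfg d → F) (A : ℝ), BdL S R u A → ∀ᶠ n in atTop,
      ‖ipr (Zb φ ψ b (R n)) (u n) -
        ipr (Zb φ ψ (fun q => ((χ (R n) q : ℝ) : ℂ) • bG S.κ Om a q) (R n)) (u n)‖ ≤ ε * Real.sqrt A := by
  obtain ⟨Cw, hCw, hW'⟩ := hW dh dm r ds φ ψ K Om hK (hOc.mono hKR) (fun η hη => hO η (hKR hη))
  obtain ⟨hgs, hgn⟩ := hW' a ha hak
  have hg2 : MemLp (bG S.κ Om a : Cfg r × Cfg ds × Cfg dm → F) 2 (wM r ds dm) :=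
    ⟨hgs.aestronglyMeasurable, lt_of_le_of_lt hgn (ENNReal.mul_lt_top ENNReal.ofReal_lt_top ha2.2)⟩
  have hgk : ∀ q : Cfg r × Cfg ds × Cfg dm, bG S.κ Om a q ≠ 0 → q.1 ∈ K := by
    intro q hq
    exact hak _ _ (right_ne_zero_of_smul hq)
  obtain ⟨L, hL, hKL, hLR, hap⟩ := one_apx S hA φ ψ hK hKR
  obtain ⟨δ, C, R₁, hδ, hC, hR₁, hB⟩ := hG hF dh dm r ds φ ψ L hs hZ hL hLR
  obtain ⟨ε', hε'⟩ : ∃ ε', ε' = min ε (ε / (2 * C)) := ⟨_, rfl⟩
  have hε0 : 0 < ε' := by rw [hε']; exact lt_min hε (by positivity)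
  have hε1 : ε' ≤ ε := by rw [hε']; exact min_le_left _ _
  have hε2 : C * (2 * ε') ≤ ε := by
    have : ε' ≤ ε / (2 * C) := by rw [hε']; exact min_le_right _ _
    rw [le_div_iff₀ (by positivity)] at this
    linarith
  obtain ⟨b, hb, hbL, hbn⟩ := hap _ hg2 hgk ε' hε0
  refine ⟨b, hb, hbn.trans (ENNReal.ofReal_le_ofReal hε1), fun R u A hu => ?_⟩
  have := rx_lf r ds dm
  have hbc : Continuous b := hb.sm.continuous
  have hb2 : MemLp b 2 (wM r ds dm) := hbc.memLp_of_hasCompactSupport hb.cs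
  obtain ⟨M, hM⟩ := hb.cs.isCompact.isBounded.subset_closedBall (0 : Cfg r × Cfg ds × Cfg dm)
  have hM' : ∀ q, b q ≠ 0 → ‖q.2.1‖ ≤ M ∧ ‖q.2.2‖ ≤ M := by
    intro q hq
    have h1 := hM (subset_tsupport _ hq)
    rw [mem_closedBall_zero_iff] at h1
    have h2 : ‖q.2‖ ≤ ‖q‖ := norm_snd_le q
    exact ⟨((norm_fst_le q.2).trans h2).trans h1, ((norm_snd_le q.2).trans h2).trans h1⟩
  have hA0 : 0 ≤ A := (nsq_nonneg (u 0)).trans (hu.norm 0)
  -- eventually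
  have e1 : ∀ᶠ R in atTop, M ≤ δ * R := by
    filter_upwards [eventually_ge_atTop (M / δ)] with R hR
    rw [div_le_iff₀ hδ] at hR
    linarith
  have hall : ∀ᶠ R in atTop, R₁ ≤ R ∧ 1 ≤ R ∧ M ≤ δ * R ∧
      (∀ q, χ R q ≠ 0 → ‖q.2.1‖ ≤ δ * R ∧ ‖q.2.2‖ ≤ δ * (R * Real.sqrt R)) ∧
      eLpNorm (fun q => bG S.κ Om a q - ((χ R q : ℝ) : ℂ) • bG S.κ Om a q) 2 (wM r ds dm) ≤ ENNReal.ofReal ε' := by
    filter_upwards [eventually_ge_atTop R₁, eventually_ge_atTop 1, e1, hχ.sup δ hδ, one_dct hχ hgs hg2 hε0]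
      with R h1 h2 h3 h4 h5
    exact ⟨h1, h2, h3, h4, h5⟩
  filter_upwards [hu.R_lim.eventually hall] with n hn
  obtain ⟨hr1, hr2, hr3, hr4, hr5⟩ := hn
  obtain ⟨ρ, hρ⟩ : ∃ ρ, ρ = R n := ⟨_, rfl⟩
  obtain ⟨v, hv⟩ : ∃ v, v = u n := ⟨_, rfl⟩
  have hui := hu.inv n
  have hun := hu.norm n
  rw [← hρ] at hr1 hr2 hr3 hr4 hr5 ⊢
  rw [← hv] at hui hun ⊢
  have hρ0 : 0 < ρ := by linarith
  have hcs : StronglyMeasurable fun q => ((χ ρ q : ℝ) : ℂ) • bG S.κ Om a q :=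
    (Complex.measurable_ofReal.comp (hχ.meas ρ)).stronglyMeasurable.smul hgs
  have hc2 : MemLp (fun q => ((χ ρ q : ℝ) : ℂ) • bG S.κ Om a q) 2 (wM r ds dm) := by
    refine hg2.mono hcs.aestronglyMeasurable (ae_of_all _ fun q => ?_)
    rw [norm_smul, Complex.norm_real, Real.norm_of_nonneg (hχ.bd ρ q).1]
    exact mul_le_of_le_one_left (norm_nonneg _) (hχ.bd ρ q).2
  have hDs : StronglyMeasurable fun q => b q - ((χ ρ q : ℝ) : ℂ) • bG S.κ Om a q := hbc.stronglyMeasurable.sub hcs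
  have hD2 : MemLp (fun q => b q - ((χ ρ q : ℝ) : ℂ) • bG S.κ Om a q) 2 (wM r ds dm) := hb2.sub hc2
  have hMs : M ≤ δ * (ρ * Real.sqrt ρ) := by
    refine hr3.trans (mul_le_mul_of_nonneg_left ?_ hδ.le)
    have : 1 ≤ Real.sqrt ρ := Real.one_le_sqrt.2 hr2
    nlinarith
  have hest := hB ρ hr1 (fun q => b q - ((χ ρ q : ℝ) : ℂ) • bG S.κ Om a q) hDs (fun q hq => by
    by_cases h : b q = 0
    · have h2 : ((χ ρ q : ℝ) : ℂ) • bG S.κ Om a q ≠ 0 := by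
        intro h3
        apply hq
        rw [h, h3, sub_zero]
      have h4 : χ ρ q ≠ 0 := by
        intro h5
        apply h2
        rw [h5, Complex.ofReal_zero, zero_smul]
      exact ⟨hKL (hgk q (right_ne_zero_of_smul h2)), hr4 q h4⟩
    · exact ⟨hbL q h, (hM' q h).1.trans hr3, (hM' q h).2.trans hMs⟩) hD2 v hui.1 hui.2
  have hlin : ipr (Zb φ ψ b ρ) v - ipr (Zb φ ψ (fun q => ((χ ρ q : ℝ) : ℂ) • bG S.κ Om a q) ρ) v =
      ∫ x, inner ℂ (Zb φ ψ (fun q => b q - ((χ ρ q : ℝ) : ℂ) • bG S.κ Om a q) ρ x) (v x) := by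
    have i1 : Integrable (fun x => inner ℂ (Zb φ ψ b ρ x) (v x)) :=
      glu_int (glu_memLp φ ψ ρ hρ0 (hb2.mono_measure (glu_w_le r ds dm))) hui.1.memLp
    have i2 : Integrable (fun x => inner ℂ (Zb φ ψ (fun q => ((χ ρ q : ℝ) : ℂ) • bG S.κ Om a q) ρ x) (v x)) :=
      glu_int (glu_memLp φ ψ ρ hρ0 (hc2.mono_measure (glu_w_le r ds dm))) hui.1.memLp
    unfold ipr
    rw [← integral_sub i1 i2]
    refine integral_congr_ae (ae_of_all _ fun x => ?_)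
    simp only
    rw [← inner_sub_left]
    congr 1
    unfold Zb
    rw [← smul_sub]
  have hnorm : eLpNorm (fun q => b q - ((χ ρ q : ℝ) : ℂ) • bG S.κ Om a q) 2 (wM r ds dm) ≤ ENNReal.ofReal (2 * ε') := by
    have h1 : (fun q => b q - ((χ ρ q : ℝ) : ℂ) • bG S.κ Om a q) =
        (fun q => b q - bG S.κ Om a q) + fun q => bG S.κ Om a q - ((χ ρ q : ℝ) : ℂ) • bG S.κ Om a q := by
      funext q
      simp only [Pi.add_apply]
      abel
    rw [h1]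
    refine (eLpNorm_add_le (hbc.stronglyMeasurable.sub hgs).aestronglyMeasurable
      (hgs.sub hcs).aestronglyMeasurable (by norm_num)).trans ?_
    rw [two_mul, ENNReal.ofReal_add hε0.le hε0.le]
    exact add_le_add hbn hr5
  have hvn : eLpNorm v 2 volume ≤ ENNReal.ofReal (Real.sqrt A) := by
    refine glu_le_of_sq ?_
    rw [glu_sq, ← glu_real_sq hui.1.memLp, ← ENNReal.ofReal_pow (Real.sqrt_nonneg _), Real.sq_sqrt hA0]
    exact ENNReal.ofReal_le_ofReal hun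
  rw [hlin]
  have hfin : ‖∫ x, inner ℂ (Zb φ ψ (fun q => b q - ((χ ρ q : ℝ) : ℂ) • bG S.κ Om a q) ρ x) (v x)‖ₑ ≤
      ENNReal.ofReal (ε * Real.sqrt A) := by
    refine hest.trans ((mul_le_mul' (mul_le_mul' le_rfl hnorm) hvn).trans ?_)
    rw [← ENNReal.ofReal_mul hC.le, ← ENNReal.ofReal_mul (by positivity)]
    exact ENNReal.ofReal_le_ofReal (mul_le_mul_of_nonneg_right hε2 (Real.sqrt_nonneg _))
  rw [← ofReal_norm, ENNReal.ofReal_le_ofReal_iff (by positivity)] at hfin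
  exact hfin

end Vale.Agent.P353.AN.REP
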